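import Vale.Agent.P101.Drop.Defs

/-!
# P101 Drop: the data of a representation of the dimension drop algebra from the generators

Given `y² = 0`, `v*v = 1 - y*y - yy*`, `yy*v = v`, put `p = v*v`, `g = yy*`,
`T = p + vv* + y*vv*y`.  Everything needed is a function of `p` times a word in `y`, `v`, and
`T` acts on all these words as `p` acts from the right.
-/

noncomputable section

namespace Vale.Agent.P101

universe u

set_option linter.unusedSectionVars false
set_option linter.unusedVariables false

namespace DropBuild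

/-! ### The functions -/

/-- `t^(-1/2)` away from `0`. -/
def rinv (t : ℝ) : ℝ := (√(max t (1 / 10)))⁻¹

/-- `(1-t)⁻¹` away from `1`. -/
def cinv (t : ℝ) : ℝ := (max (1 - t) (1 / 10))⁻¹

/-- `(1-t)⁻¹` for `t ≤ 1/2`. -/
def rho (t : ℝ) : ℝ := (max (1 - t) (1 / 2))⁻¹

/-- The square root of the middle window. -/
def chi (t : ℝ) : ℝ := √(midWin t)

/-- The square root of the window for the high end. -/
def ell (t : ℝ) : ℝ := √(ramp01 (1 / 5) (2 / 5) t)

@[fun_prop] theorem continuous_rinv : Continuous rinv := by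
  refine Continuous.inv₀ (by fun_prop) fun t => Real.sqrt_ne_zero'.2 ?_
  have := le_max_right t (1 / 10)
  linarith

@[fun_prop] theorem continuous_cinv : Continuous cinv := by
  refine Continuous.inv₀ (by fun_prop) fun t => ?_
  have := le_max_right (1 - t) (1 / 10)
  linarith

@[fun_prop] theorem continuous_rho : Continuous rho := by
  refine Continuous.inv₀ (by fun_prop) fun t => ?_
  have := le_max_right (1 - t) (1 / 2)
  linarith

@[fun_prop] theorem continuous_ramp01 (a b : ℝ) : Continuous (ramp01 a b) := by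
  unfold ramp01; fun_prop

@[fun_prop] theorem continuous_lowWin : Continuous lowWin := by unfold lowWin; fun_prop

@[fun_prop] theorem continuous_highWin : Continuous highWin := by unfold highWin; fun_prop

@[fun_prop] theorem continuous_midWin : Continuous midWin := by unfold midWin; fun_prop

@[fun_prop] theorem continuous_chi : Continuous chi := by unfold chi; fun_prop

@[fun_prop] theorem continuous_ell : Continuous ell := by unfold ell; fun_prop

theorem ramp01_nonneg (a b t : ℝ) : 0 ≤ ramp01 a b t := le_max_left _ _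

theorem ramp01_le_one (a b t : ℝ) : ramp01 a b t ≤ 1 := max_le zero_le_one (min_le_left _ _)

theorem ramp01_eq_zero {a b t : ℝ} (hab : a < b) (h : t ≤ a) : ramp01 a b t = 0 :=
  max_eq_left ((min_le_right _ _).trans (div_nonpos_iff.2 (Or.inr ⟨by linarith, by linarith⟩)))

theorem ramp01_eq_one {a b t : ℝ} (hab : a < b) (h : b ≤ t) : ramp01 a b t = 1 := by
  have : 1 ≤ (t - a) / (b - a) := by rw [le_div_iff₀ (by linarith)]; linarith
  rw [ramp01, min_eq_left this, max_eq_right zero_le_one]

theorem midWin_nonneg (t : ℝ) : 0 ≤ midWin t :=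
  mul_nonneg (ramp01_nonneg _ _ _) (sub_nonneg.2 (ramp01_le_one _ _ _))

theorem chi_mul_chi (t : ℝ) : chi t * chi t = midWin t := Real.mul_self_sqrt (midWin_nonneg t)

theorem ell_mul_ell (t : ℝ) : ell t * ell t = ramp01 (1 / 5) (2 / 5) t :=
  Real.mul_self_sqrt (ramp01_nonneg _ _ _)

theorem chi_low {t : ℝ} (h : t ≤ 1 / 10) : chi t = 0 := by
  rw [chi, midWin, ramp01_eq_zero (by norm_num) h, zero_mul, Real.sqrt_zero]

theorem chi_high {t : ℝ} (h : 9 / 10 ≤ t) : chi t = 0 := by
  rw [chi, midWin, ramp01_eq_one (a := 4 / 5) (by norm_num) h, sub_self, mul_zero, Real.sqrt_zero]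

theorem ell_low {t : ℝ} (h : t ≤ 1 / 10) : ell t = 0 := by
  rw [ell, ramp01_eq_zero (by norm_num) (by linarith), Real.sqrt_zero]

theorem lowWin_high {t : ℝ} (h : 1 / 2 ≤ t) : lowWin t = 0 := by
  rw [lowWin, ramp01_eq_one (by norm_num) (by linarith), sub_self]

theorem highWin_low {t : ℝ} (h : t ≤ 3 / 5) : highWin t = 0 :=
  ramp01_eq_zero (by norm_num) h

theorem ell_high {t : ℝ} (h : 2 / 5 ≤ t) : ell t = 1 := by
  rw [ell, ramp01_eq_one (by norm_num) h, Real.sqrt_one]

theorem rinv_sq_mul {t : ℝ} (h : 1 / 10 ≤ t) : rinv t * rinv t * t = 1 := by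
  rw [rinv, max_eq_left h, ← mul_inv, Real.mul_self_sqrt (by linarith),
    inv_mul_cancel₀ (by linarith)]

theorem cinv_nonneg (t : ℝ) : 0 ≤ cinv t := inv_nonneg.2 (le_max_of_le_right (by norm_num))

theorem cinv_mul {t : ℝ} (h : t ≤ 9 / 10) : cinv t * (1 - t) = 1 := by
  rw [cinv, max_eq_left (by linarith), inv_mul_cancel₀ (by linarith)]

theorem rho_nonneg (t : ℝ) : 0 ≤ rho t := inv_nonneg.2 (le_max_of_le_right (by norm_num))

theorem rho_mul {t : ℝ} (h : t ≤ 1 / 2) : rho t * (1 - t) = 1 := by
  rw [rho, max_eq_left (by linarith), inv_mul_cancel₀ (by linarith)]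

theorem rho_eq_cinv {t : ℝ} (h : t ≤ 1 / 2) : rho t = cinv t := by
  rw [rho, cinv, max_eq_left (by linarith), max_eq_left (by linarith)]

theorem rho_zero : rho 0 = 1 := by norm_num [rho]

theorem sqrt_rho_zero : √(rho 0) = 1 := by rw [rho_zero, Real.sqrt_one]

/-! ### The elements -/

variable {B : Type u} [CStarAlgebra B] [PartialOrder B] [StarOrderedRing B]

/-- The relations. -/
structure Gens (y v : B) : Prop where
  sq : y * y = 0
  sumV : star v * v = 1 - star y * y - y * star y
  keep : y * star y * v = v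

/-- `p = v*v`, in terms of `y`. -/
def pp (y : B) : B := 1 - star y * y - y * star y

/-- A function of `p`. -/
def P (y : B) (f : ℝ → ℝ) : B := cfc f (pp y)

/-- The central parameter. -/
def TT (y v : B) : B := pp y + v * star v + star y * (v * star v) * y

/-- The three columns of a function. -/
def Lc (y v : B) (f : ℝ → ℝ) : Fin 3 → B :=
  ![P y f, v * P y (fun t => f t * rinv t), star y * (v * P y (fun t => f t * rinv t))]

/-- The two columns. -/
def EE (y : B) : Fin 2 → B :=
  ![P y cinv * (y * star y), P y (fun t => cinv t * √(cinv t)) * (star y * (y * star y))]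

/-- The six columns. -/
def KK (y v : B) (q : Fin 3 × Fin 2) : B := Lc y v chi q.1 * EE y q.2

/-- The low matrix units. -/
def NN (y : B) : Fin 2 → Fin 2 → B :=
  ![![P y rho * (y * star y), P y (fun t => √(rho t)) * y],
    ![P y (fun t => √(rho t)) * star y, P y rho * (star y * y)]]

variable {y v : B}

theorem isSelfAdjoint_pp (y : B) : IsSelfAdjoint (pp y) :=
  ((IsSelfAdjoint.one B).sub (IsSelfAdjoint.star_mul_self y)).sub (IsSelfAdjoint.mul_star_self y)

theorem star_P (y : B) (f : ℝ → ℝ) : star (P y f) = P y f :=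
  (cfc_predicate f (pp y)).star_eq

theorem P_id (y : B) : P y (fun t => t) = pp y := cfc_id' ℝ (pp y) (isSelfAdjoint_pp y)

theorem P_one_sub (y : B) : P y (fun t => 1 - t) = star y * y + y * star y := by
  rw [P, cfc_sub (fun _ : ℝ => (1 : ℝ)) (fun t => t) (pp y) (by fun_prop) (by fun_prop),
    cfc_const_one ℝ (pp y) (isSelfAdjoint_pp y), cfc_id' ℝ (pp y) (isSelfAdjoint_pp y), pp]
  abel

theorem P_mul (y : B) (f f' : ℝ → ℝ) (hf : Continuous f) (hf' : Continuous f') :
    P y f * P y f' = P y fun t => f t * f' t :=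
  (cfc_mul f f' (pp y) hf.continuousOn hf'.continuousOn).symm

theorem P_mul₂ (y : B) (f f' F : ℝ → ℝ) (hf : Continuous f) (hf' : Continuous f')
    (hF : Continuous F) : P y (fun t => f t * f' t) * P y F = P y fun t => f t * f' t * F t :=
  P_mul y (fun t => f t * f' t) F (by fun_prop) hF

theorem Gens.pp_eq (h : Gens y v) : pp y = star v * v := h.sumV.symm

theorem Gens.pp_nonneg (h : Gens y v) : 0 ≤ pp y := by
  rw [h.pp_eq]; exact star_mul_self_nonneg v

theorem Gens.pp_le_one (h : Gens y v) : pp y ≤ 1 := by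
  rw [pp, sub_sub, sub_le_self_iff]
  exact add_nonneg (star_mul_self_nonneg y) (mul_star_self_nonneg y)

theorem Gens.mem_Icc (h : Gens y v) {t : ℝ} (ht : t ∈ spectrum ℝ (pp y)) : 0 ≤ t ∧ t ≤ 1 := by
  refine ⟨spectrum_nonneg_of_nonneg h.pp_nonneg ht, ?_⟩
  have hs := isSelfAdjoint_pp y
  exact (le_algebraMap_iff_spectrum_le (a := pp y) (r := (1 : ℝ)) hs).1
    (by simpa using h.pp_le_one) t ht

theorem Gens.P_congr (h : Gens y v) {f f' : ℝ → ℝ} (hff : ∀ t, 0 ≤ t → t ≤ 1 → f t = f' t) :
    P y f = P y f' :=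
  cfc_congr fun t ht => hff t (h.mem_Icc ht).1 (h.mem_Icc ht).2

theorem Gens.star_sq (h : Gens y v) : star y * star y = 0 := by rw [← star_mul, h.sq, star_zero]

theorem Gens.g_star (h : Gens y v) : y * star y * star y = 0 := by
  rw [mul_assoc, h.star_sq, mul_zero]

theorem Gens.y_g (h : Gens y v) : y * (y * star y) = 0 := by rw [← mul_assoc, h.sq, zero_mul]

theorem Gens.h_g (h : Gens y v) : star y * y * (y * star y) = 0 := by
  rw [mul_assoc, h.y_g, mul_zero]

theorem Gens.y_pp (h : Gens y v) : pp y * y = y * pp y := by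
  simp only [pp, sub_mul, mul_sub, one_mul, mul_one, mul_assoc, h.sq, mul_zero, sub_zero]
  rw [← mul_assoc y y, h.sq, zero_mul, sub_zero]

theorem Gens.commute_y (h : Gens y v) (f : ℝ → ℝ) : Commute (P y f) y :=
  (show Commute (pp y) y from h.y_pp).cfc_real f

theorem Gens.commute_ystar (h : Gens y v) (f : ℝ → ℝ) : Commute (P y f) (star y) := by
  simpa [star_P] using (h.commute_y f).star_star

theorem Gens.commute_g (h : Gens y v) (f : ℝ → ℝ) : Commute (P y f) (y * star y) :=
  (h.commute_y f).mul_right (h.commute_ystar f)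

theorem Gens.g_g (h : Gens y v) :
    y * star y * (y * star y) = P y (fun t => 1 - t) * (y * star y) := by
  rw [P_one_sub, add_mul, h.h_g, zero_add]

theorem Gens.g_y (h : Gens y v) : y * star y * y = P y (fun t => 1 - t) * y := by
  rw [P_one_sub, add_mul, mul_assoc (star y) y y, h.sq, mul_zero, zero_add]

theorem Gens.y_h (h : Gens y v) : y * (star y * y) = P y (fun t => 1 - t) * y := by
  rw [← mul_assoc, h.g_y]

theorem Gens.ystar_g (h : Gens y v) :
    star y * (y * star y) = P y (fun t => 1 - t) * star y := by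
  have := congrArg star h.g_y
  simp only [star_mul, star_star, star_P] at this
  rw [this]
  exact ((h.commute_ystar _).symm).eq

theorem Gens.h_h (h : Gens y v) :
    star y * y * (star y * y) = P y (fun t => 1 - t) * (star y * y) := by
  rw [P_one_sub, add_mul, mul_assoc y (star y), ← mul_assoc (star y) (star y), h.star_sq,
    zero_mul, mul_zero, add_zero]

theorem Gens.y_v (h : Gens y v) : y * v = 0 := by
  rw [← CStarRing.star_mul_self_eq_zero_iff, star_mul]
  have hv : star y * y * v = 0 := by
    conv_lhs => rw [← h.keep]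
    rw [← mul_assoc, h.h_g, zero_mul]
  rw [mul_assoc, ← mul_assoc (star y), hv, mul_zero]

theorem Gens.pp_v (h : Gens y v) : pp y * v = 0 := by
  rw [pp, sub_mul, sub_mul, one_mul, h.keep, mul_assoc, h.y_v, mul_zero, sub_zero, sub_self]

theorem Gens.v_v (h : Gens y v) : v * v = 0 := by
  rw [← CStarRing.star_mul_self_eq_zero_iff, star_mul, mul_assoc, ← mul_assoc (star v) v,
    ← h.pp_eq, h.pp_v, mul_zero]

theorem Gens.v_ystar_v (h : Gens y v) : star v * (star y * v) = 0 := by
  rw [← mul_assoc, ← star_mul, h.y_v, star_zero, zero_mul]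

theorem Gens.P_v (h : Gens y v) {f : ℝ → ℝ} (hf : Continuous f) : P y f * v = f 0 • v :=
  cfc_mul_eq_smul_zero (isSelfAdjoint_pp y) h.pp_v hf

theorem Gens.star_v_P (h : Gens y v) {f : ℝ → ℝ} (hf : Continuous f) (hf0 : f 0 = 0) :
    star v * P y f = 0 := by
  rw [← star_P, ← star_mul, h.P_v hf, hf0, zero_smul, star_zero]

theorem Gens.TT_v (h : Gens y v) : TT y v * v = v * pp y := by
  rw [TT, add_mul, add_mul, h.pp_v, zero_add, mul_assoc v (star v) v, ← h.pp_eq, mul_assoc _ y v,
    h.y_v, mul_zero, add_zero]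

theorem Gens.TT_y (h : Gens y v) : TT y v * y = y * TT y v := by
  have h1 : y * (v * star v) = 0 := by rw [← mul_assoc, h.y_v, zero_mul]
  have h2 : star y * (v * star v) * y * y = 0 := by rw [mul_assoc, h.sq, mul_zero]
  have h3 : y * (star y * (v * star v) * y) = v * star v * y := by
    rw [← mul_assoc, ← mul_assoc, ← mul_assoc (y * star y), h.keep]
  rw [TT, add_mul, add_mul, mul_add, mul_add, h2, h3, h1, h.y_pp, add_zero, add_zero]

theorem isSelfAdjoint_TT (y v : B) : IsSelfAdjoint (TT y v) :=
  ((isSelfAdjoint_pp y).add (IsSelfAdjoint.mul_star_self v)).add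
    (by simp [IsSelfAdjoint, mul_assoc])

theorem Gens.commute_TT_ystar (h : Gens y v) : Commute (TT y v) (star y) := by
  simpa [(isSelfAdjoint_TT y v).star_eq] using
    (show Commute (TT y v) y from h.TT_y).star_star

theorem Gens.TT_P (h : Gens y v) {f : ℝ → ℝ} (hf : Continuous f) (hf0 : f 0 = 0) :
    TT y v * P y f = P y f * pp y := by
  have h1 := h.star_v_P hf hf0
  have h2 : star y * (v * star v) * y * P y f = 0 := by
    rw [mul_assoc, ← (h.commute_y f).eq, ← mul_assoc, mul_assoc (star y), mul_assoc v, h1,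
      mul_zero, mul_zero, zero_mul]
  rw [TT, add_mul, add_mul, mul_assoc v, h1, mul_zero, h2, add_zero, add_zero]
  exact ((Commute.refl (pp y)).cfc_real f).eq.symm

theorem Gens.TT_pp (h : Gens y v) : TT y v * pp y = pp y * pp y := by
  conv_lhs => rw [← P_id y]
  rw [h.TT_P (continuous_id' (X := ℝ)) rfl, P_id]

theorem Gens.TT_nonneg (h : Gens y v) : 0 ≤ TT y v :=
  add_nonneg (add_nonneg h.pp_nonneg (mul_star_self_nonneg v))
    (star_left_conjugate_nonneg (mul_star_self_nonneg v) y)

theorem Gens.TT_le_one (h : Gens y v) : TT y v ≤ 1 := by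
  rcases subsingleton_or_nontrivial B with hB | hB
  · exact (Subsingleton.elim _ _).le
  set w := v * star v with hw
  have hw1 : w ≤ 1 := by
    have hn : ‖w‖ ≤ 1 := by
      rw [hw, CStarRing.norm_self_mul_star, ← CStarRing.norm_star_mul_self, ← h.pp_eq]
      calc ‖pp y‖ ≤ ‖(1 : B)‖ := CStarAlgebra.norm_le_norm_of_nonneg_of_le h.pp_nonneg h.pp_le_one
        _ = 1 := norm_one
    exact (CStarAlgebra.norm_le_one_iff_of_nonneg w (mul_star_self_nonneg v)).1 hn
  have hgw : y * star y * w = w := by rw [hw, ← mul_assoc, h.keep]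
  have hwg : w * (y * star y) = w := by
    simpa [hw, star_mul, mul_assoc] using congrArg star hgw
  have hc : Commute (y * star y) (1 - w) :=
    (Commute.one_right _).sub_right (hgw.trans hwg.symm)
  have h1 : 0 ≤ y * star y - w := by
    have := Commute.mul_nonneg (mul_star_self_nonneg y) (sub_nonneg.2 hw1) hc
    rwa [mul_sub, mul_one, hgw] at this
  have h2 : 0 ≤ star y * y - star y * w * y := by
    have := star_left_conjugate_nonneg (sub_nonneg.2 hw1) y
    rwa [mul_sub, mul_one, sub_mul] at this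
  rw [← sub_nonneg]
  have := add_nonneg h1 h2
  convert this using 1
  rw [TT, pp, ← hw]
  abel

theorem Gens.cfc_TT_mul (h : Gens y v) {x : B} (hx : TT y v * x = x * pp y) {f : ℝ → ℝ}
    (hf : Continuous f) : cfc f (TT y v) * x = x * P y f :=
  intertwine (isSelfAdjoint_TT y v) (isSelfAdjoint_pp y) hx hf

theorem Gens.commute_P_pp (f : ℝ → ℝ) : Commute (P y f) (pp y) :=
  (Commute.refl (pp y)).cfc_real f

theorem Gens.TT_Lc (h : Gens y v) {f : ℝ → ℝ} (hf : Continuous f) (hf0 : f 0 = 0) (a : Fin 3) :
    TT y v * Lc y v f a = Lc y v f a * pp y := by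
  fin_cases a <;> simp only [Lc, Fin.zero_eta, Fin.mk_one, Fin.reduceFinMk, Matrix.cons_val_zero,
    Matrix.cons_val_one, Matrix.cons_val]
  · exact h.TT_P hf hf0
  · rw [← mul_assoc, h.TT_v, mul_assoc, ← (Gens.commute_P_pp _).eq, ← mul_assoc]
  · rw [← mul_assoc, h.commute_TT_ystar.eq, mul_assoc, ← mul_assoc (TT y v), h.TT_v, mul_assoc v,
      ← (Gens.commute_P_pp _).eq]
    simp only [mul_assoc]

theorem Lc_mul_P (y v : B) (f f' : ℝ → ℝ) (hf : Continuous f) (hf' : Continuous f') (a : Fin 3) :
    Lc y v f a * P y f' = Lc y v (fun t => f t * f' t) a := by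
  have e : P y (fun t => f t * rinv t) * P y f' = P y fun t => f t * f' t * rinv t := by
    rw [P_mul y _ _ (by fun_prop) hf']
    exact congrArg (P y) (funext fun t => by ring)
  fin_cases a <;> simp only [Lc, Fin.zero_eta, Fin.mk_one, Fin.reduceFinMk, Matrix.cons_val_zero,
    Matrix.cons_val_one, Matrix.cons_val]
  · exact P_mul y f f' hf hf'
  · rw [mul_assoc, e]
  · rw [mul_assoc, mul_assoc, e]

theorem Gens.Lc_congr (h : Gens y v) {f f' : ℝ → ℝ}
    (hff : ∀ t, 0 ≤ t → t ≤ 1 → f t = f' t) (a : Fin 3) : Lc y v f a = Lc y v f' a := by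
  fin_cases a <;> simp only [Lc, Fin.zero_eta, Fin.mk_one, Fin.reduceFinMk, Matrix.cons_val_zero,
    Matrix.cons_val_one, Matrix.cons_val]
  · exact h.P_congr hff
  · rw [h.P_congr fun t h0 h1 => by rw [hff t h0 h1]]
  · rw [h.P_congr fun t h0 h1 => by rw [hff t h0 h1]]

theorem Gens.cfc_TT_Lc (h : Gens y v) {f F : ℝ → ℝ} (hf : Continuous f) (hf0 : f 0 = 0)
    (hF : Continuous F) (a : Fin 3) :
    cfc F (TT y v) * Lc y v f a = Lc y v (fun t => f t * F t) a := by
  rw [h.cfc_TT_mul (h.TT_Lc hf hf0 a) hF, Lc_mul_P y v f F hf hF]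

theorem Gens.star_Lc_mul (h : Gens y v) {f f' : ℝ → ℝ} (hf : Continuous f) (hf' : Continuous f')
    (h0 : ∀ t, t ≤ 1 / 10 → f t = 0) (h0' : ∀ t, t ≤ 1 / 10 → f' t = 0) (a b : Fin 3) :
    star (Lc y v f a) * Lc y v f' b = if a = b then P y (fun t => f t * f' t) else 0 := by
  have hfz : f 0 = 0 := h0 0 (by norm_num)
  have hfz' : f' 0 = 0 := h0' 0 (by norm_num)
  have hη : Continuous fun t => f t * rinv t := by fun_prop
  have hη' : Continuous fun t => f' t * rinv t := by fun_prop
  have e : P y (fun t => f t * rinv t) * pp y * P y (fun t => f' t * rinv t) =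
      P y fun t => f t * f' t := by
    rw [← P_id y, P_mul y _ _ hη continuous_id', P_mul y _ _ (by fun_prop) hη']
    refine h.P_congr fun t ht0 ht1 => ?_
    rcases le_total t (1 / 10) with ht | ht
    · rw [h0 t ht, h0' t ht]; simp
    · linear_combination (f t * f' t) * rinv_sq_mul ht
  fin_cases a <;> fin_cases b <;> simp only [Lc, Fin.zero_eta, Fin.mk_one, Fin.reduceFinMk,
    Matrix.cons_val_zero, Matrix.cons_val_one, Matrix.cons_val, star_mul, star_star, star_P,
    if_true, Fin.reduceEq, if_false]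
  · exact P_mul y f f' hf hf'
  · rw [← mul_assoc, h.P_v hf, hfz, zero_smul, zero_mul]
  · rw [← mul_assoc, (h.commute_ystar f).eq, mul_assoc, ← mul_assoc (P y f), h.P_v hf, hfz,
      zero_smul, zero_mul, mul_zero]
  · rw [mul_assoc, h.star_v_P hf' hfz', mul_zero]
  · rw [mul_assoc, ← mul_assoc (star v), ← h.pp_eq, ← mul_assoc, e]
  · rw [mul_assoc, ← mul_assoc (star y), ← mul_assoc (star v), h.v_ystar_v, zero_mul, mul_zero]
  · rw [mul_assoc, mul_assoc, ← (h.commute_y f').eq, ← mul_assoc (star v), h.star_v_P hf' hfz',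
      zero_mul, mul_zero]
  · rw [mul_assoc, mul_assoc, ← mul_assoc y, h.y_v, zero_mul, mul_zero, mul_zero]
  · rw [mul_assoc, mul_assoc, ← mul_assoc y, ← mul_assoc (y * star y), h.keep,
      ← mul_assoc (star v), ← h.pp_eq, ← mul_assoc, e]

theorem Gens.sum_Lc (h : Gens y v) {f : ℝ → ℝ} (hf : Continuous f)
    (h0 : ∀ t, t ≤ 1 / 10 → f t = 0) :
    ∑ a, Lc y v f a * star (Lc y v f a) = cfc (fun t => f t * f t) (TT y v) := by
  set η : ℝ → ℝ := fun t => f t * rinv t with hη
  have hηc : Continuous η := by rw [hη]; fun_prop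
  set ν : ℝ → ℝ := fun t => η t * η t with hν
  have hνc : Continuous ν := by rw [hν]; fun_prop
  have hTs := isSelfAdjoint_TT y v
  have e1 : cfc (fun t => f t * f t) (TT y v) = cfc ν (TT y v) * TT y v := by
    conv_rhs => enter [2]; rw [← cfc_id' ℝ (TT y v) hTs]
    rw [← cfc_mul ν (fun t => t) (TT y v) hνc.continuousOn continuousOn_id]
    refine cfc_congr fun t ht => ?_
    rcases le_total t (1 / 10) with h' | h'
    · simp [hν, hη, h0 t h']
    · simp only [hν, hη]
      linear_combination -(f t * f t) * rinv_sq_mul h'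
  have e2 : cfc ν (TT y v) * pp y = P y f * P y f := by
    rw [h.cfc_TT_mul h.TT_pp hνc, P_mul y f f hf hf, ← P_id y, P_mul y _ _ continuous_id' hνc]
    refine h.P_congr fun t _ _ => ?_
    rcases le_total t (1 / 10) with h' | h'
    · simp [hν, hη, h0 t h']
    · simp only [hν, hη]
      linear_combination (f t * f t) * rinv_sq_mul h'
  have e3 : cfc ν (TT y v) * v = v * (P y η * P y η) := by
    rw [h.cfc_TT_mul h.TT_v hνc, P_mul y η η hηc hηc]
  have e4 : Commute (cfc ν (TT y v)) (star y) := h.commute_TT_ystar.cfc_real ν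
  rw [e1, Fin.sum_univ_three]
  conv_rhs => enter [2]; rw [TT]
  rw [mul_add, mul_add, e2, ← mul_assoc (cfc ν (TT y v)) v]
  rw [show cfc ν (TT y v) * (star y * (v * star v) * y) =
    star y * (cfc ν (TT y v) * v * star v) * y by
      rw [← mul_assoc, ← mul_assoc, e4.eq]; simp only [mul_assoc], e3]
  simp only [Lc, Matrix.cons_val_zero, Matrix.cons_val_one, Matrix.cons_val, star_mul, star_star,
    star_P, ← hη, mul_assoc]

theorem Gens.commute_EE (h : Gens y v) (f : ℝ → ℝ) (k : Fin 2) : Commute (P y f) (EE y k) := by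
  have hP : ∀ f', Commute (P y f) (P y f') := fun f' => cfc_commute_cfc f f' (pp y)
  fin_cases k <;> simp only [EE, Fin.zero_eta, Fin.mk_one, Matrix.cons_val_zero,
    Matrix.cons_val_one]
  · exact (hP _).mul_right (h.commute_g f)
  · exact (hP _).mul_right ((h.commute_ystar f).mul_right (h.commute_g f))

theorem Gens.EE_mul_g (h : Gens y v) (k : Fin 2) :
    EE y k * (y * star y) = P y (fun t => 1 - t) * EE y k := by
  have hP : ∀ f f', Commute (P y f) (P y f') := fun f f' => cfc_commute_cfc f f' (pp y)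
  fin_cases k <;> simp only [EE, Fin.zero_eta, Fin.mk_one, Matrix.cons_val_zero,
    Matrix.cons_val_one]
  · rw [mul_assoc, h.g_g, ← mul_assoc, (hP _ _).eq, mul_assoc]
  · rw [mul_assoc, mul_assoc (star y), h.g_g, ← mul_assoc (star y),
      ← (h.commute_ystar _).eq, mul_assoc (P y _) (star y), ← mul_assoc, (hP _ _).eq, mul_assoc]

theorem Gens.star_EE_mul (h : Gens y v) {μ : ℝ → ℝ} (hμ : Continuous μ)
    (h0 : ∀ t, 9 / 10 ≤ t → μ t = 0) (k l : Fin 2) :
    star (EE y k) * P y μ * EE y l =
      if k = l then P y (fun t => μ t * cinv t) * (y * star y) else 0 := by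
  have hg : IsSelfAdjoint (y * star y) := IsSelfAdjoint.mul_star_self y
  have hm : Continuous fun t => cinv t * √(cinv t) := by fun_prop
  -- move the functions to the left
  have key : ∀ (f f' : ℝ → ℝ) (a b : B), Continuous f → Continuous f' →
      (∀ F, Commute (P y F) a) → star (P y f * a) * P y μ * (P y f' * b) =
        P y (fun t => f t * μ t * f' t) * (star a * b) := by
    intro f f' a b hf hf' ha
    have ha' : ∀ F, Commute (P y F) (star a) := fun F => by
      simpa [star_P] using (ha F).star_star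
    calc star (P y f * a) * P y μ * (P y f' * b)
        = star a * (P y f * P y μ * P y f') * b := by
          rw [star_mul, star_P]; simp only [mul_assoc]
      _ = star a * P y (fun t => f t * μ t * f' t) * b := by
          rw [P_mul y f μ hf hμ, P_mul y _ f' (by fun_prop) hf']
      _ = _ := by rw [← (ha' _).eq, mul_assoc]
  have hcy : ∀ F, Commute (P y F) (star y * (y * star y)) := fun F =>
    (h.commute_ystar F).mul_right (h.commute_g F)
  fin_cases k <;> fin_cases l <;> simp only [EE, Fin.zero_eta, Fin.mk_one, Matrix.cons_val_zero,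
    Matrix.cons_val_one, Fin.reduceEq, if_true, if_false]
  · rw [key _ _ _ _ continuous_cinv continuous_cinv h.commute_g, hg.star_eq, h.g_g, ← mul_assoc,
      P_mul y _ _ (by fun_prop) (by fun_prop)]
    refine congrArg (· * _) (h.P_congr fun t _ _ => ?_)
    rcases le_total (9 / 10) t with ht | ht
    · simp [h0 t ht]
    · linear_combination (μ t * cinv t) * cinv_mul ht
  · rw [key _ _ _ _ continuous_cinv hm h.commute_g, hg.star_eq, ← mul_assoc (y * star y), h.g_star,
      zero_mul, mul_zero]
  · rw [key _ _ _ _ hm continuous_cinv hcy, star_mul, star_star, hg.star_eq,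
      mul_assoc (y * star y), h.y_g, mul_zero, mul_zero]
  · rw [key _ _ _ _ hm hm hcy, star_mul, star_star, hg.star_eq,
      show y * star y * y * (star y * (y * star y)) =
        y * star y * (y * star y * (y * star y)) by simp only [mul_assoc],
      h.g_g, ← mul_assoc (y * star y), ← (h.commute_g _).eq, mul_assoc (P y _) (y * star y), h.g_g,
      ← mul_assoc, ← mul_assoc, P_mul y _ _ (by fun_prop) (by fun_prop),
      P_mul y _ _ (by fun_prop) (by fun_prop)]
    refine congrArg (· * _) (h.P_congr fun t _ _ => ?_)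
    rcases le_total (9 / 10) t with ht | ht
    · simp [h0 t ht]
    · have hs := Real.mul_self_sqrt (cinv_nonneg t)
      linear_combination (μ t * cinv t * cinv t * (1 - t) * (1 - t)) * hs +
        (μ t * cinv t * (cinv t * (1 - t) + 1)) * cinv_mul ht

theorem Gens.Lc_EE_sum (h : Gens y v) (a : Fin 3) :
    Lc y v chi a * ∑ k, EE y k * star (EE y k) = Lc y v chi a := by
  have hg : IsSelfAdjoint (y * star y) := IsSelfAdjoint.mul_star_self y
  have e0 : EE y 0 * star (EE y 0) =
      P y (fun t => cinv t * cinv t * (1 - t)) * (y * star y) := by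
    simp only [EE, Matrix.cons_val_zero]
    rw [star_mul, star_P, hg.star_eq,
      show P y cinv * (y * star y) * (y * star y * P y cinv) =
        P y cinv * (y * star y * (y * star y)) * P y cinv by simp only [mul_assoc],
      h.g_g, mul_assoc, mul_assoc (P y _) (y * star y), ← (h.commute_g cinv).eq, ← mul_assoc,
      ← mul_assoc, P_mul y _ _ (by fun_prop) (by fun_prop),
      P_mul y _ _ (by fun_prop) (by fun_prop)]
    exact congrArg (· * _) (h.P_congr fun t _ _ => by ring)
  have e1 : EE y 1 * star (EE y 1) =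
      P y (fun t => cinv t * √(cinv t) * (cinv t * √(cinv t)) * ((1 - t) * (1 - t))) *
        (star y * y) := by
    simp only [EE, Matrix.cons_val_one, Matrix.cons_val_zero]
    have hmid : star y * (y * star y) * (y * star y * y) =
        P y (fun t => (1 - t) * (1 - t)) * (star y * y) := by
      rw [show star y * (y * star y) * (y * star y * y) =
        star y * (y * star y * (y * star y)) * y by simp only [mul_assoc], h.g_g,
        ← mul_assoc (star y), ← (h.commute_ystar _).eq,
        show P y (fun t => 1 - t) * star y * (y * star y) * y =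
          P y (fun t => 1 - t) * (star y * y * (star y * y)) by simp only [mul_assoc],
        h.h_h, ← mul_assoc, P_mul y _ _ (by fun_prop) (by fun_prop)]
    have hc : ∀ F, Commute (P y F) (star y * y) := fun F =>
      (h.commute_ystar F).mul_right (h.commute_y F)
    rw [star_mul, star_mul, star_P, hg.star_eq, star_star]
    set F : ℝ → ℝ := fun t => cinv t * √(cinv t) with hF
    have hFc : Continuous F := by rw [hF]; fun_prop
    rw [show P y F * (star y * (y * star y)) * (y * star y * y * P y F) =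
        P y F * (star y * (y * star y) * (y * star y * y)) * P y F by simp only [mul_assoc],
      hmid, mul_assoc, mul_assoc (P y _) (star y * y), ← (hc F).eq, ← mul_assoc, ← mul_assoc,
      P_mul y _ _ (by fun_prop) (by fun_prop), P_mul y _ _ (by fun_prop) (by fun_prop)]
    exact congrArg (· * _) (h.P_congr fun t _ _ => by simp only [hF]; ring)
  have hL : ∀ ω : ℝ → ℝ, Continuous ω → (∀ t, t ≤ 9 / 10 → ω t = cinv t) → ∀ x : B,
      Lc y v chi a * (P y ω * x) = Lc y v (fun t => chi t * cinv t) a * x := by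
    intro ω hω hωc x
    rw [← mul_assoc, Lc_mul_P y v chi ω continuous_chi hω]
    refine congrArg (· * x) (h.Lc_congr (fun t _ _ => ?_) a)
    rcases le_total (9 / 10) t with ht | ht
    · simp [chi_high ht]
    · rw [hωc t ht]
  rw [Fin.sum_univ_two, e0, e1, mul_add,
    hL _ (by fun_prop) (fun t ht => by linear_combination cinv t * cinv_mul ht),
    hL _ (by fun_prop) (fun t ht => by
      linear_combination (cinv t * cinv t * (1 - t) * (1 - t)) * Real.mul_self_sqrt (cinv_nonneg t) +
        (cinv t * (cinv t * (1 - t) + 1)) * cinv_mul ht),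
    ← mul_add, add_comm, ← P_one_sub, Lc_mul_P y v _ _ (by fun_prop) (by fun_prop)]
  refine h.Lc_congr (fun t _ _ => ?_) a
  rcases le_total (9 / 10) t with ht | ht
  · simp [chi_high ht]
  · linear_combination chi t * cinv_mul ht

theorem Gens.star_KK_mul (h : Gens y v) (p q : Fin 3 × Fin 2) :
    star (KK y v p) * KK y v q =
      if p = q then P y (fun t => chi t * chi t * cinv t) * (y * star y) else 0 := by
  rw [KK, KK, star_mul, mul_assoc, ← mul_assoc (star (Lc y v chi p.1)),
    h.star_Lc_mul continuous_chi continuous_chi (fun t => chi_low) (fun t => chi_low)]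
  rcases eq_or_ne p.1 q.1 with h1 | h1
  · rw [if_pos h1, ← mul_assoc,
      h.star_EE_mul (by fun_prop) (fun t ht => by simp [chi_high ht])]
    rcases eq_or_ne p.2 q.2 with h2 | h2
    · rw [if_pos h2, if_pos (Prod.ext h1 h2)]
    · rw [if_neg h2, if_neg fun e => h2 (by rw [e])]
  · rw [if_neg h1, zero_mul, mul_zero, if_neg fun e => h1 (by rw [e])]

theorem Gens.KK_mul_gram (h : Gens y v) (p : Fin 3 × Fin 2) :
    KK y v p * (P y (fun t => chi t * chi t * cinv t) * (y * star y)) =
      cfc midWin (TT y v) * KK y v p := by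
  rw [KK, mul_assoc, ← mul_assoc (EE y p.2), ← (h.commute_EE _ p.2).eq, mul_assoc (P y _),
    h.EE_mul_g, ← mul_assoc (P y _), P_mul y _ _ (by fun_prop) (by fun_prop), ← mul_assoc,
    Lc_mul_P y v _ _ continuous_chi (by fun_prop), ← mul_assoc (cfc _ _),
    h.cfc_TT_Lc continuous_chi (chi_low (by norm_num)) continuous_midWin]
  refine congrArg (· * _) (h.Lc_congr (fun t _ _ => ?_) p.1)
  rcases le_total (9 / 10) t with ht | ht
  · simp [chi_high ht]
  · rw [← chi_mul_chi]
    linear_combination (chi t * chi t * chi t) * cinv_mul ht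

theorem Gens.TT_KK (h : Gens y v) (p : Fin 3 × Fin 2) :
    TT y v * KK y v p = KK y v p * pp y := by
  rw [KK, ← mul_assoc, h.TT_Lc continuous_chi (chi_low (by norm_num)), mul_assoc, mul_assoc]
  congr 1
  rw [← P_id y]
  exact (h.commute_EE _ p.2).eq

theorem Gens.commute_conj (h : Gens y v) {a b : B} (ha : TT y v * a = a * pp y)
    (hb : TT y v * b = b * pp y) : Commute (TT y v) (a * star b) := by
  have hb' : star b * TT y v = pp y * star b := by
    simpa [star_mul, (isSelfAdjoint_TT y v).star_eq, (isSelfAdjoint_pp y).star_eq] using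
      congrArg star hb
  show TT y v * (a * star b) = a * star b * TT y v
  rw [← mul_assoc, ha, mul_assoc, ← hb', mul_assoc]

theorem Gens.commute_TT_P (h : Gens y v) (f : ℝ → ℝ) : Commute (TT y v) (P y f) := by
  have h1 : Commute (pp y) (TT y v) := by
    have := congrArg star h.TT_pp
    simp only [star_mul, (isSelfAdjoint_TT y v).star_eq, (isSelfAdjoint_pp y).star_eq] at this
    exact this.trans h.TT_pp.symm
  exact (h1.cfc_real f).symm

theorem Gens.commute_TT_NN (h : Gens y v) (i j : Fin 2) : Commute (TT y v) (NN y i j) := by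
  have hy : Commute (TT y v) y := h.TT_y
  have hys := h.commute_TT_ystar
  have hP := h.commute_TT_P
  fin_cases i <;> fin_cases j <;> simp only [NN, Fin.zero_eta, Fin.mk_one, Matrix.cons_val_zero,
    Matrix.cons_val_one]
  · exact (hP _).mul_right (hy.mul_right hys)
  · exact (hP _).mul_right hy
  · exact (hP _).mul_right hys
  · exact (hP _).mul_right (hys.mul_right hy)

theorem Gens.absorb (h : Gens y v) {ω : ℝ → ℝ} (hω : Continuous ω)
    (h1 : ∀ t, 0 ≤ t → t ≤ 1 / 2 → ω t = 1) (x : B) :
    cfc lowWin (TT y v) * (P y ω * x) = cfc lowWin (TT y v) * x := by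
  have hc : Continuous fun t => ω t - 1 := by fun_prop
  have hz : ω 0 - 1 = 0 := by rw [h1 0 le_rfl (by norm_num), sub_self]
  have e1 : P y (fun t => ω t - 1) = P y ω - 1 := by
    rw [P, cfc_sub ω (fun _ => (1 : ℝ)) (pp y) hω.continuousOn continuousOn_const,
      cfc_const_one ℝ (pp y) (isSelfAdjoint_pp y), P]
  have e2 : cfc lowWin (TT y v) * P y (fun t => ω t - 1) = 0 := by
    rw [h.cfc_TT_mul (h.TT_P hc hz) continuous_lowWin, P_mul y _ _ hc continuous_lowWin,
      h.P_congr (f' := fun _ => (0 : ℝ)), P, cfc_const_zero]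
    intro t ht0 _
    rcases le_total t (1 / 2) with ht | ht
    · simp [h1 t ht0 ht]
    · simp [lowWin_high ht]
  rw [e1, mul_sub, mul_one, sub_eq_zero] at e2
  rw [← mul_assoc, e2]

theorem star_NN (h : Gens y v) (i j : Fin 2) : star (NN y i j) = NN y j i := by
  fin_cases i <;> fin_cases j <;> simp only [NN, Fin.zero_eta, Fin.mk_one, Matrix.cons_val_zero,
    Matrix.cons_val_one, star_mul, star_P, star_star]
  · exact ((h.commute_g _).symm).eq
  · exact ((h.commute_ystar _).symm).eq
  · exact ((h.commute_y _).symm).eq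
  · exact (((h.commute_ystar _).mul_right (h.commute_y _)).symm).eq

theorem rho_mul_one {t : ℝ} (ht : t ≤ 1 / 2) : rho t * (1 - t) = 1 := rho_mul ht

theorem Gens.NN_mul (h : Gens y v) (i j k l : Fin 2) :
    cfc lowWin (TT y v) * (NN y i j * NN y k l) =
      if j = k then cfc lowWin (TT y v) * NN y i l else 0 := by
  have hab : ∀ (f : ℝ → ℝ) (x : B), Continuous f →
      cfc lowWin (TT y v) * (P y (fun t => rho t * (1 - t)) * (P y f * x)) =
        cfc lowWin (TT y v) * (P y f * x) := fun f x _ =>
    h.absorb (by fun_prop) (fun t _ ht => rho_mul ht) _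
  -- products of two of the words
  have key : ∀ (f f' : ℝ → ℝ) (a b : B), (∀ F, Commute (P y F) a) → Continuous f → Continuous f' →
      P y f * a * (P y f' * b) = P y (fun t => f t * f' t) * (a * b) := by
    intro f f' a b ha hf hf'
    calc P y f * a * (P y f' * b) = P y f * (a * P y f') * b := by simp only [mul_assoc]
      _ = P y f * (P y f' * a) * b := by rw [(ha f').eq]
      _ = P y f * P y f' * (a * b) := by simp only [mul_assoc]
      _ = _ := by rw [P_mul y f f' hf hf']
  have hcy := fun F => h.commute_y F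
  have hcs := fun F => h.commute_ystar F
  have hcg := fun F => h.commute_g F
  have hch : ∀ F, Commute (P y F) (star y * y) := fun F => (hcs F).mul_right (hcy F)
  have hr : Continuous rho := continuous_rho
  have hs : Continuous fun t => √(rho t) := by fun_prop
  have hsq : P y (fun t => √(rho t) * √(rho t)) = P y rho :=
    h.P_congr fun t _ _ => Real.mul_self_sqrt (rho_nonneg t)
  have z1 : y * star y * (star y * y) = 0 := by rw [← mul_assoc, h.g_star, zero_mul]
  have z2 : star y * (star y * y) = 0 := by rw [← mul_assoc, h.star_sq, zero_mul]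
  have z3 : star y * y * y = 0 := by rw [mul_assoc, h.sq, mul_zero]
  fin_cases i <;> fin_cases j <;> fin_cases k <;> fin_cases l <;>
    simp only [NN, Fin.zero_eta, Fin.mk_one, Matrix.cons_val_zero, Matrix.cons_val_one,
      Fin.reduceEq, if_true, if_false]
  -- (0,0)
  · rw [key _ _ _ _ hcg hr hr, h.g_g, ← mul_assoc (P y _) (P y _), P_mul₂ y _ _ (fun t => 1 - t) hr hr
      (by fun_prop), h.P_congr (f' := fun t => rho t * (1 - t) * rho t) (fun t _ _ => by ring),
      ← P_mul y _ _ (by fun_prop) hr, mul_assoc, hab _ _ hr]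
  · rw [key _ _ _ _ hcg hr hs, h.g_y, ← mul_assoc (P y _) (P y _), P_mul₂ y _ _ (fun t => 1 - t) hr hs
      (by fun_prop), h.P_congr (f' := fun t => rho t * (1 - t) * √(rho t)) (fun t _ _ => by ring),
      ← P_mul y _ _ (by fun_prop) hs, mul_assoc, hab _ _ hs]
  · rw [key _ _ _ _ hcg hr hs, h.g_star, mul_zero, mul_zero]
  · rw [key _ _ _ _ hcg hr hr, z1, mul_zero, mul_zero]
  -- (0,1)
  · rw [key _ _ _ _ hcy hs hr, h.y_g, mul_zero, mul_zero]
  · rw [key _ _ _ _ hcy hs hs, h.sq, mul_zero, mul_zero]
  · rw [key _ _ _ _ hcy hs hs, hsq]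
  · rw [key _ _ _ _ hcy hs hr, h.y_h, ← mul_assoc (P y _) (P y _), P_mul₂ y _ _ (fun t => 1 - t) hs hr
      (by fun_prop), h.P_congr (f' := fun t => rho t * (1 - t) * √(rho t)) (fun t _ _ => by ring),
      ← P_mul y _ _ (by fun_prop) hs, mul_assoc, hab _ _ hs]
  -- (1,0)
  · rw [key _ _ _ _ hcs hs hr, h.ystar_g, ← mul_assoc (P y _) (P y _), P_mul₂ y _ _ (fun t => 1 - t) hs hr
      (by fun_prop), h.P_congr (f' := fun t => rho t * (1 - t) * √(rho t)) (fun t _ _ => by ring),
      ← P_mul y _ _ (by fun_prop) hs, mul_assoc, hab _ _ hs]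
  · rw [key _ _ _ _ hcs hs hs, hsq]
  · rw [key _ _ _ _ hcs hs hs, h.star_sq, mul_zero, mul_zero]
  · rw [key _ _ _ _ hcs hs hr, z2, mul_zero, mul_zero]
  -- (1,1)
  · rw [key _ _ _ _ hch hr hr, h.h_g, mul_zero, mul_zero]
  · rw [key _ _ _ _ hch hr hs, z3, mul_zero, mul_zero]
  · rw [key _ _ _ _ hch hr hs, show star y * y * star y = star y * (y * star y) from mul_assoc ..,
      h.ystar_g, ← mul_assoc (P y _) (P y _), P_mul₂ y _ _ (fun t => 1 - t) hr hs
      (by fun_prop), h.P_congr (f' := fun t => rho t * (1 - t) * √(rho t)) (fun t _ _ => by ring),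
      ← P_mul y _ _ (by fun_prop) hs, mul_assoc, hab _ _ hs]
  · rw [key _ _ _ _ hch hr hr, h.h_h, ← mul_assoc (P y _) (P y _), P_mul₂ y _ _ (fun t => 1 - t) hr hr
      (by fun_prop), h.P_congr (f' := fun t => rho t * (1 - t) * rho t) (fun t _ _ => by ring),
      ← P_mul y _ _ (by fun_prop) hr, mul_assoc, hab _ _ hr]

theorem Gens.NN_sum (h : Gens y v) :
    cfc lowWin (TT y v) * ∑ i, NN y i i = cfc lowWin (TT y v) := by
  rw [Fin.sum_univ_two]
  simp only [NN, Matrix.cons_val_zero, Matrix.cons_val_one]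
  rw [← mul_add, add_comm, ← P_one_sub, P_mul y _ _ continuous_rho (by fun_prop)]
  simpa using h.absorb (ω := fun t => rho t * (1 - t)) (by fun_prop) (fun t _ ht => rho_mul ht) 1

theorem Gens.NN_v (h : Gens y v) (z : B) :
    NN y 0 0 * (v * z) = v * z ∧ NN y 0 1 * (v * z) = 0 ∧
      NN y 1 0 * (v * z) = star y * (v * z) ∧ NN y 1 1 * (v * z) = 0 ∧
    NN y 0 0 * (star y * (v * z)) = 0 ∧ NN y 0 1 * (star y * (v * z)) = v * z ∧
      NN y 1 0 * (star y * (v * z)) = 0 ∧ NN y 1 1 * (star y * (v * z)) = star y * (v * z) := by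
  have hr : P y rho * v = v := by rw [h.P_v continuous_rho, rho_zero, one_smul]
  have hs : P y (fun t => √(rho t)) * v = v := by
    rw [h.P_v (f := fun t => √(rho t)) (by fun_prop), sqrt_rho_zero, one_smul]
  have hgv : y * star y * (v * z) = v * z := by rw [← mul_assoc, h.keep]
  have hyv : y * (v * z) = 0 := by rw [← mul_assoc, h.y_v, zero_mul]
  have hhy : y * (star y * (v * z)) = v * z := by rw [← mul_assoc, hgv]
  refine ⟨?_, ?_, ?_, ?_, ?_, ?_, ?_, ?_⟩ <;>
    simp only [NN, Matrix.cons_val_zero, Matrix.cons_val_one]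
  · rw [mul_assoc, hgv, ← mul_assoc, hr]
  · rw [mul_assoc, hyv, mul_zero]
  · rw [(h.commute_ystar _).eq, mul_assoc, ← mul_assoc _ v z, hs]
  · rw [mul_assoc, mul_assoc, hyv, mul_zero, mul_zero]
  · rw [mul_assoc, ← mul_assoc (y * star y), h.g_star, zero_mul, mul_zero]
  · rw [mul_assoc, hhy, ← mul_assoc, hs]
  · rw [mul_assoc, ← mul_assoc (star y), h.star_sq, zero_mul, mul_zero]
  · rw [mul_assoc, mul_assoc, hhy, ← mul_assoc, (h.commute_ystar _).eq, mul_assoc,
      ← mul_assoc _ v z, hr]

theorem Gens.NN_low (h : Gens y v) :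
    cfc lowWin (TT y v) * (NN y 0 0 * KK y v (0, 0)) = cfc lowWin (TT y v) * KK y v (0, 0) ∧
    cfc lowWin (TT y v) * (NN y 0 1 * KK y v (0, 0)) = 0 ∧
    cfc lowWin (TT y v) * (NN y 1 0 * KK y v (0, 0)) = cfc lowWin (TT y v) * KK y v (0, 1) ∧
    cfc lowWin (TT y v) * (NN y 1 1 * KK y v (0, 0)) = 0 ∧
    cfc lowWin (TT y v) * (NN y 0 0 * KK y v (0, 1)) = 0 ∧
    cfc lowWin (TT y v) * (NN y 0 1 * KK y v (0, 1)) = cfc lowWin (TT y v) * KK y v (0, 0) ∧
    cfc lowWin (TT y v) * (NN y 1 0 * KK y v (0, 1)) = 0 ∧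
    cfc lowWin (TT y v) * (NN y 1 1 * KK y v (0, 1)) = cfc lowWin (TT y v) * KK y v (0, 1) := by
  set g := y * star y with hg
  set c : ℝ → ℝ := fun t => chi t * cinv t with hc
  set d : ℝ → ℝ := fun t => chi t * (cinv t * √(cinv t)) with hd
  have hcc : Continuous c := by rw [hc]; fun_prop
  have hdc : Continuous d := by rw [hd]; fun_prop
  have k0 : KK y v (0, 0) = P y c * g := by
    simp only [KK, Lc, EE, Matrix.cons_val_zero]
    rw [← mul_assoc, P_mul y _ _ (by fun_prop) (by fun_prop)]
  have k1 : KK y v (0, 1) = P y d * (star y * g) := by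
    simp only [KK, Lc, EE, Matrix.cons_val_zero, Matrix.cons_val_one]
    rw [← mul_assoc, P_mul y _ _ (by fun_prop) (by fun_prop)]
  have key : ∀ (f f' : ℝ → ℝ) (a b : B), (∀ F, Commute (P y F) a) → Continuous f → Continuous f' →
      P y f * a * (P y f' * b) = P y (fun t => f t * f' t) * (a * b) := by
    intro f f' a b ha hf hf'
    calc P y f * a * (P y f' * b) = P y f * (a * P y f') * b := by simp only [mul_assoc]
      _ = P y f * (P y f' * a) * b := by rw [(ha f').eq]
      _ = P y f * P y f' * (a * b) := by simp only [mul_assoc]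
      _ = _ := by rw [P_mul y f f' hf hf']
  have shift : ∀ (f F : ℝ → ℝ) (x : B), Continuous f → Continuous F →
      (∀ t, 0 ≤ t → t ≤ 1 / 2 → f t = F t) →
      cfc lowWin (TT y v) * (P y f * x) = cfc lowWin (TT y v) * (P y F * x) := by
    intro f F x hf hF hfF
    have hz : Continuous fun t => f t - F t + 1 := by fun_prop
    have h1 := h.absorb hz (fun t ht0 ht => by rw [hfF t ht0 ht]; ring) x
    have e : P y (fun t => f t - F t + 1) = P y f - P y F + 1 := by
      simp only [P]
      rw [cfc_add (pp y) (fun t => f t - F t) (fun _ => (1 : ℝ)) (hf.sub hF).continuousOn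
        continuousOn_const, cfc_sub f F (pp y) hf.continuousOn hF.continuousOn,
        cfc_const_one ℝ (pp y) (isSelfAdjoint_pp y)]
    rw [e, add_mul, one_mul, mul_add, sub_mul, mul_sub] at h1
    exact sub_eq_zero.1 (add_eq_right.1 h1)
  have hr : Continuous rho := continuous_rho
  have hs : Continuous fun t => √(rho t) := by fun_prop
  have hcy := fun F => h.commute_y F
  have hcs := fun F => h.commute_ystar F
  have hcg := fun F => h.commute_g F
  have hch : ∀ F, Commute (P y F) (star y * y) := fun F => (hcs F).mul_right (hcy F)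
  rw [k0, k1]
  refine ⟨?_, ?_, ?_, ?_, ?_, ?_, ?_, ?_⟩ <;>
    simp only [NN, Matrix.cons_val_zero, Matrix.cons_val_one]
  · rw [key _ _ _ _ hcg hr hcc, h.g_g, ← mul_assoc (P y _) (P y _), P_mul₂ y _ _ (fun t => 1 - t) hr hcc
      (by fun_prop)]
    exact shift _ _ _ (by fun_prop) hcc fun t _ ht => by
      linear_combination c t * rho_mul ht
  · rw [key _ _ _ _ hcy hs hcc, h.y_g, mul_zero, mul_zero]
  · rw [key _ _ _ _ hcs hs hcc]
    exact shift _ _ _ (hs.mul hcc) hdc fun t _ ht => by
      simp only [hc, hd, rho_eq_cinv ht]; ring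
  · rw [key _ _ _ _ hch hr hcc, h.h_g, mul_zero, mul_zero]
  · rw [key _ _ _ _ hcg hr hdc, ← mul_assoc g (star y), h.g_star, zero_mul, mul_zero, mul_zero]
  · rw [key _ _ _ _ hcy hs hdc, ← mul_assoc y (star y), h.g_g, ← mul_assoc (P y _) (P y _),
      P_mul₂ y _ _ (fun t => 1 - t) hs hdc (by fun_prop)]
    refine shift _ _ _ (by fun_prop) hcc fun t _ ht => ?_
    simp only [hc, hd, rho_eq_cinv ht]
    linear_combination (chi t * cinv t * (1 - t)) * Real.mul_self_sqrt (cinv_nonneg t) +
      (chi t * cinv t) * cinv_mul (show t ≤ 9 / 10 by linarith)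
  · rw [key _ _ _ _ hcs hs hdc, ← mul_assoc (star y) (star y), h.star_sq, zero_mul, mul_zero,
      mul_zero]
  · rw [key _ _ _ _ hch hr hdc,
      show star y * y * (star y * g) = star y * (g * g) by simp only [hg, mul_assoc],
      hg, h.g_g, ← mul_assoc (star y), ← (hcs _).eq, mul_assoc (P y _) (star y),
      ← mul_assoc (P y _) (P y _), P_mul₂ y _ _ (fun t => 1 - t) hr hdc (by fun_prop)]
    exact shift _ _ _ (by fun_prop) hdc fun t _ ht => by
      linear_combination d t * rho_mul ht

theorem Gens.NN_KK (h : Gens y v) (i j : Fin 2) (q : Fin 3 × Fin 2) :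
    cfc lowWin (TT y v) * (NN y i j * KK y v q) =
      if (slotFlip q).2 = j then cfc lowWin (TT y v) * KK y v (slotFlip ((slotFlip q).1, i))
      else 0 := by
  obtain ⟨l1, l2, l3, l4, l5, l6, l7, l8⟩ := h.NN_low
  have k1 : ∀ k, KK y v (1, k) = v * (P y (fun t => chi t * rinv t) * EE y k) := fun k => by
    simp only [KK, Lc, Matrix.cons_val_one, Matrix.cons_val_zero, mul_assoc]
  have k2 : ∀ k, KK y v (2, k) = star y * (v * (P y (fun t => chi t * rinv t) * EE y k)) :=
    fun k => by simp only [KK, Lc, Matrix.cons_val, mul_assoc]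
  obtain ⟨a, k⟩ := q
  have f1 := fun z => (h.NN_v z).1
  have f2 := fun z => (h.NN_v z).2.1
  have f3 := fun z => (h.NN_v z).2.2.1
  have f4 := fun z => (h.NN_v z).2.2.2.1
  have f5 := fun z => (h.NN_v z).2.2.2.2.1
  have f6 := fun z => (h.NN_v z).2.2.2.2.2.1
  have f7 := fun z => (h.NN_v z).2.2.2.2.2.2.1
  have f8 := fun z => (h.NN_v z).2.2.2.2.2.2.2
  fin_cases a <;> fin_cases k <;> fin_cases i <;> fin_cases j <;>
    simp [slotFlip, k1, k2, l1, l2, l3, l4, l5, l6, l7, l8, f1, f2, f3, f4, f5, f6, f7, f8]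

theorem low_rep_iff : ∀ (i j : Fin 2) (p q : Fin 3 × Fin 2),
    ((slotFlip p).1 = (slotFlip q).1 ∧ (slotFlip p).2 = i ∧ (slotFlip q).2 = j) ↔
      (p = slotFlip ((slotFlip q).1, i) ∧ (slotFlip q).2 = j) := by
  decide

end DropBuild

open DropBuild in
/-- The generators give the data of a representation of the dimension drop algebra. -/
theorem exists_dropData {B : Type u} [CStarAlgebra B] [PartialOrder B] [StarOrderedRing B]
    (y v : B) (h1 : y * y = 0) (h2 : star v * v = 1 - star y * y - y * star y)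
    (h3 : y * star y * v = v) : ∃ T X N M, DropData (B := B) T X N M := by
  have h : Gens y v := ⟨h1, h2, h3⟩
  refine ⟨TT y v, fun p q => KK y v p * star (KK y v q), NN y,
    fun a b => Lc y v ell a * star (Lc y v ell b), ?_⟩
  have hellc : Continuous ell := continuous_ell
  have hell : ∀ a b, star (Lc y v ell a) * Lc y v ell b =
      if a = b then P y (fun t => ell t * ell t) else 0 :=
    h.star_Lc_mul hellc hellc (fun t => ell_low) (fun t => ell_low)
  have hKT := h.TT_KK
  have hLT : ∀ a, TT y v * Lc y v ell a = Lc y v ell a * pp y :=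
    h.TT_Lc hellc (ell_low (by norm_num))
  refine
    { nonneg := h.TT_nonneg
      le_one := h.TT_le_one
      commX := fun p q => h.commute_conj (hKT p) (hKT q)
      commN := h.commute_TT_NN
      commM := fun a b => h.commute_conj (hLT a) (hLT b)
      starX := fun p q => by simp
      starN := star_NN h
      starM := fun a b => by simp
      mulX := fun p q r s => ?_
      sumX := ?_
      mulN := h.NN_mul
      sumN := h.NN_sum
      mulM := fun a b c d => ?_
      sumM := ?_
      actN := fun i j q s => ?_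
      actM := fun a b q s => ?_ }
  · show KK y v p * star (KK y v q) * (KK y v r * star (KK y v s)) = _
    rw [show KK y v p * star (KK y v q) * (KK y v r * star (KK y v s)) =
      KK y v p * (star (KK y v q) * KK y v r) * star (KK y v s) by simp only [mul_assoc],
      h.star_KK_mul]
    split_ifs
    · rw [h.KK_mul_gram, mul_assoc]
    · simp
  · rw [Fintype.sum_prod_type]
    have : ∀ a, ∑ k, KK y v (a, k) * star (KK y v (a, k)) =
        Lc y v chi a * star (Lc y v chi a) := fun a => by
      rw [show Lc y v chi a * star (Lc y v chi a) =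
        (Lc y v chi a * ∑ k, EE y k * star (EE y k)) * star (Lc y v chi a) by rw [h.Lc_EE_sum a]]
      simp only [KK, star_mul, Finset.mul_sum, Finset.sum_mul, mul_assoc]
    simp only [this]
    rw [h.sum_Lc continuous_chi fun t => chi_low]
    exact cfc_congr fun t _ => chi_mul_chi t
  · show cfc highWin (TT y v) * (Lc y v ell a * star (Lc y v ell b) *
      (Lc y v ell c * star (Lc y v ell d))) = _
    rw [show Lc y v ell a * star (Lc y v ell b) * (Lc y v ell c * star (Lc y v ell d)) =
      Lc y v ell a * (star (Lc y v ell b) * Lc y v ell c) * star (Lc y v ell d) by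
        simp only [mul_assoc], hell]
    split_ifs
    · rw [Lc_mul_P y v _ _ hellc (by fun_prop), ← mul_assoc,
        h.cfc_TT_Lc (by fun_prop) (by simp [ell_low (show (0 : ℝ) ≤ 1 / 10 by norm_num)])
          continuous_highWin,
        ← mul_assoc, h.cfc_TT_Lc hellc (ell_low (by norm_num)) continuous_highWin]
      refine congrArg (· * _) (h.Lc_congr (fun t _ _ => ?_) a)
      rcases le_total t (3 / 5) with ht | ht
      · simp [highWin_low ht]
      · simp [ell_high (show 2 / 5 ≤ t by linarith)]
    · simp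
  · rw [h.sum_Lc hellc fun t => ell_low, ← cfc_mul highWin (fun t => ell t * ell t) (TT y v)]
    refine cfc_congr fun t _ => ?_
    rcases le_total t (3 / 5) with ht | ht
    · simp [highWin_low ht]
    · simp [ell_high (show 2 / 5 ≤ t by linarith)]
  · show cfc lowWin (TT y v) * (NN y i j * (KK y v q * star (KK y v s))) =
      cfc lowWin (TT y v) * ∑ p, lowRep i j p q • (KK y v p * star (KK y v s))
    rw [← mul_assoc (NN y i j), ← mul_assoc, h.NN_KK]
    simp only [lowRep, low_rep_iff, ite_smul, one_smul, zero_smul]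
    split_ifs with hj
    · simp [hj, mul_assoc]
    · simp [hj]
  · show cfc highWin (TT y v) * (Lc y v ell a * star (Lc y v ell b) *
      (KK y v q * star (KK y v s))) =
      cfc highWin (TT y v) * ∑ p, highRep a b p q • (KK y v p * star (KK y v s))
    have hK : cfc highWin (TT y v) * (Lc y v ell a * star (Lc y v ell b) * KK y v q) =
        if q.1 = b then cfc highWin (TT y v) * KK y v (a, q.2) else 0 := by
      rw [KK, ← mul_assoc _ (Lc y v chi q.1), mul_assoc (Lc y v ell a),
        h.star_Lc_mul hellc continuous_chi (fun t => ell_low) (fun t => chi_low)]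
      rcases eq_or_ne q.1 b with hb | hb
      · rw [if_pos hb.symm, if_pos hb, KK, Lc_mul_P y v _ _ hellc (by fun_prop), ← mul_assoc,
          h.cfc_TT_Lc (by fun_prop) (by simp [ell_low (show (0 : ℝ) ≤ 1 / 10 by norm_num)])
            continuous_highWin,
          ← mul_assoc, h.cfc_TT_Lc continuous_chi (chi_low (by norm_num)) continuous_highWin]
        refine congrArg (· * _) (h.Lc_congr (fun t _ _ => ?_) a)
        rcases le_total t (3 / 5) with ht | ht
        · simp [highWin_low ht]
        · simp [ell_high (show 2 / 5 ≤ t by linarith)]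
      · rw [if_neg (Ne.symm hb), if_neg hb, mul_zero, zero_mul, mul_zero]
    have hrep : ∀ p : Fin 3 × Fin 2,
        (p.2 = q.2 ∧ p.1 = a ∧ q.1 = b) ↔ (p = (a, q.2) ∧ q.1 = b) := fun p => by
      constructor
      · rintro ⟨e1, e2, e3⟩; exact ⟨Prod.ext e2 e1, e3⟩
      · rintro ⟨rfl, e3⟩; exact ⟨rfl, rfl, e3⟩
    rw [← mul_assoc (Lc y v ell a * _), ← mul_assoc, hK]
    simp only [highRep, hrep, ite_smul, one_smul, zero_smul]
    split_ifs with hb
    · simp [hb, mul_assoc]
    · simp [hb]

end Vale.Agent.P101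

end
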