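import Vale.Agent.P101.Drop.Algebra
import Vale.Agent.P101.Final

/-!
# P101 Drop: from generators to homomorphisms, and no characters from homomorphisms
-/

noncomputable section

namespace Vale.Agent.P101

universe u

open Filter Topology

/-- `Z_{2,3}` as a star subalgebra of `C([0,1], M₃ ⊗ M₂)`. -/
def dropAlg23 :
    StarSubalgebra ℂ C(↥(Set.Icc (0 : ℝ) 1), Matrix (Fin 3 × Fin 2) (Fin 3 × Fin 2) ℂ) where
  carrier := {f | InDimDrop f}
  mul_mem' := by
    rintro f g ⟨⟨η, hη⟩, ⟨ξ, hξ⟩⟩ ⟨⟨η', hη'⟩, ⟨ξ', hξ'⟩⟩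
    exact ⟨⟨η * η', by simp [hη, hη', ← Matrix.mul_kronecker_mul]⟩,
      ⟨ξ * ξ', by simp [hξ, hξ', ← Matrix.mul_kronecker_mul]⟩⟩
  add_mem' := by
    rintro f g ⟨⟨η, hη⟩, ⟨ξ, hξ⟩⟩ ⟨⟨η', hη'⟩, ⟨ξ', hξ'⟩⟩
    exact ⟨⟨η + η', by simp [hη, hη', Matrix.kronecker_add]⟩,
      ⟨ξ + ξ', by simp [hξ, hξ', Matrix.add_kronecker]⟩⟩
  algebraMap_mem' c :=
    ⟨⟨algebraMap ℂ _ c, by simp [Algebra.algebraMap_eq_smul_one, Matrix.kronecker_smul]⟩,
      ⟨algebraMap ℂ _ c, by simp [Algebra.algebraMap_eq_smul_one, Matrix.smul_kronecker]⟩⟩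
  star_mem' := by
    rintro f ⟨⟨η, hη⟩, ⟨ξ, hξ⟩⟩
    exact ⟨⟨star η, by simp [hη, Matrix.star_eq_conjTranspose, Matrix.conjTranspose_kronecker]⟩,
      ⟨star ξ, by simp [hξ, Matrix.star_eq_conjTranspose, Matrix.conjTranspose_kronecker]⟩⟩

/-- The weight of the explicit square-zero family at `t`. -/
def dropWeight (t : ℝ) (a : Fin 3) : ℝ := (1 - t) ^ 2 + (if a = 1 then 2 else 1) * t ^ 2

theorem dropWeight_pos (t : ℝ) (a : Fin 3) : 0 < dropWeight t a := by
  unfold dropWeight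
  split <;> nlinarith [sq_nonneg (1 - t), sq_nonneg t, sq_nonneg (2 * t - 1)]

/-- A multiple of `1 ⊗ η` vanishing at `1`. -/
def lowFun (η : Matrix (Fin 2) (Fin 2) ℂ) :
    C(↥(Set.Icc (0 : ℝ) 1), Matrix (Fin 3 × Fin 2) (Fin 3 × Fin 2) ℂ) where
  toFun t := ((1 - (t : ℝ) : ℝ) : ℂ) • Matrix.kronecker (1 : Matrix (Fin 3) (Fin 3) ℂ) η
  continuous_toFun := by fun_prop

/-- A multiple of `ξ ⊗ 1` vanishing at `0`. -/
def highFun (ξ : Matrix (Fin 3) (Fin 3) ℂ) :
    C(↥(Set.Icc (0 : ℝ) 1), Matrix (Fin 3 × Fin 2) (Fin 3 × Fin 2) ℂ) where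
  toFun t := ((t : ℝ) : ℂ) • Matrix.kronecker ξ (1 : Matrix (Fin 2) (Fin 2) ℂ)
  continuous_toFun := by fun_prop

theorem lowFun_mem (η : Matrix (Fin 2) (Fin 2) ℂ) : lowFun η ∈ dropAlg23 :=
  ⟨⟨η, by simp [lowFun]⟩, ⟨0, by simp [lowFun]⟩⟩

theorem highFun_mem (ξ : Matrix (Fin 3) (Fin 3) ℂ) : highFun ξ ∈ dropAlg23 :=
  ⟨⟨0, by simp [highFun]⟩, ⟨ξ, by simp [highFun]⟩⟩

/-- The square-zero elements of `Z_{2,3}`. -/
def dropGens : Fin 6 → dropAlg23 :=
  ![⟨lowFun (Matrix.single 0 1 1), lowFun_mem _⟩, ⟨lowFun (Matrix.single 1 0 1), lowFun_mem _⟩,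
    ⟨highFun (Matrix.single 0 1 1), highFun_mem _⟩, ⟨highFun (Matrix.single 1 0 1), highFun_mem _⟩,
    ⟨highFun (Matrix.single 1 2 1), highFun_mem _⟩, ⟨highFun (Matrix.single 2 1 1), highFun_mem _⟩]

theorem dropGens_sq (i : Fin 6) : dropGens i * dropGens i = 0 := by
  fin_cases i <;>
    refine Subtype.ext (ContinuousMap.ext fun t => ?_) <;>
    simp [dropGens, lowFun, highFun, ← Matrix.mul_kronecker_mul]

/-- The inverse of `∑ x* x` for the family `dropGens`. -/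
def dropInv : dropAlg23 :=
  ⟨{ toFun := fun t => Matrix.diagonal fun p => (((dropWeight t p.1)⁻¹ : ℝ) : ℂ)
     continuous_toFun := by
       refine continuous_matrix fun p q => ?_
       by_cases h : p = q
       · subst h
         simp only [Matrix.diagonal_apply_eq]
         refine Complex.continuous_ofReal.comp (Continuous.inv₀ ?_ fun t => (dropWeight_pos _ _).ne')
         unfold dropWeight
         fun_prop
       · simp only [Matrix.diagonal_apply_ne _ h]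
         exact continuous_const },
    ⟨1, by
      rw [Matrix.kronecker, Matrix.one_kronecker_one]
      ext p q
      by_cases h : p = q
      · subst h; simp [dropWeight]
      · simp [Matrix.diagonal_apply_ne _ h, Matrix.one_apply_ne h]⟩,
    ⟨Matrix.diagonal fun a => (((dropWeight 1 a)⁻¹ : ℝ) : ℂ), by
      ext ⟨a, k⟩ ⟨b, l⟩
      by_cases h1 : a = b <;> by_cases h2 : k = l <;>
        simp [h1, h2, Matrix.diagonal, Matrix.one_apply]⟩⟩

theorem star_lowFun_mul_apply (η : Matrix (Fin 2) (Fin 2) ℂ) (t : ↥(Set.Icc (0 : ℝ) 1)) :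
    (star (lowFun η) * lowFun η) t =
      (((1 - (t : ℝ)) ^ 2 : ℝ) : ℂ) • Matrix.kronecker (1 : Matrix (Fin 3) (Fin 3) ℂ) (star η * η) := by
  simp [lowFun, Matrix.star_eq_conjTranspose, Matrix.conjTranspose_kronecker, smul_smul,
    ← Matrix.mul_kronecker_mul, sq, -Complex.coe_smul]

theorem star_highFun_mul_apply (ξ : Matrix (Fin 3) (Fin 3) ℂ) (t : ↥(Set.Icc (0 : ℝ) 1)) :
    (star (highFun ξ) * highFun ξ) t =
      (((t : ℝ) ^ 2 : ℝ) : ℂ) • Matrix.kronecker (star ξ * ξ) (1 : Matrix (Fin 2) (Fin 2) ℂ) := by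
  simp [highFun, Matrix.star_eq_conjTranspose, Matrix.conjTranspose_kronecker, smul_smul,
    ← Matrix.mul_kronecker_mul, sq, -Complex.coe_smul]

theorem star_single_mul_single {n : Type*} [Fintype n] [DecidableEq n] (i j : n) :
    star (Matrix.single i j (1 : ℂ)) * Matrix.single i j 1 = Matrix.single j j 1 := by
  simp [Matrix.star_eq_conjTranspose]

theorem dropInv_mul : dropInv * ∑ i, star (dropGens i) * dropGens i = 1 := by
  refine Subtype.ext (ContinuousMap.ext fun t => ?_)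
  have hsum : ((∑ i, star (dropGens i) * dropGens i : dropAlg23) :
      C(↥(Set.Icc (0 : ℝ) 1), Matrix (Fin 3 × Fin 2) (Fin 3 × Fin 2) ℂ)) t
      = Matrix.diagonal fun p => ((dropWeight t p.1 : ℝ) : ℂ) := by
    simp only [Fin.sum_univ_six, dropGens, Matrix.cons_val_zero, Matrix.cons_val_one,
      Matrix.cons_val]
    simp only [AddMemClass.coe_add, MulMemClass.coe_mul, StarMemClass.coe_star]
    simp only [ContinuousMap.coe_add, Pi.add_apply, star_lowFun_mul_apply,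
      star_highFun_mul_apply, star_single_mul_single]
    ext ⟨a, k⟩ ⟨b, l⟩
    simp only [Matrix.add_apply, Matrix.smul_apply, Matrix.kronecker, Matrix.kroneckerMap_apply,
      Matrix.single_apply, Matrix.one_apply, Matrix.diagonal_apply, Prod.mk.injEq, smul_eq_mul]
    fin_cases a <;> fin_cases b <;> fin_cases k <;> fin_cases l <;>
      simp [dropWeight] <;> ring
  show (dropInv : C(↥(Set.Icc (0 : ℝ) 1), Matrix (Fin 3 × Fin 2) (Fin 3 × Fin 2) ℂ)) t * _ = 1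
  rw [hsum]
  simp only [dropInv, ContinuousMap.coe_mk, Matrix.diagonal_mul_diagonal, ← Complex.ofReal_mul,
    inv_mul_cancel₀ (dropWeight_pos _ _).ne', Complex.ofReal_one, Matrix.diagonal_one]

variable {A : Type u} [CStarAlgebra A] {ω : Ultrafilter ℕ}

theorem IsCentralSeq.add' {F : Filter ℕ} {f g : ℕ → A} (hf : IsCentralSeq A F f)
    (hg : IsCentralSeq A F g) : IsCentralSeq A F (f + g) := by
  have := hf.sub ((hg.sub hg).sub hg)
  rwa [sub_self, zero_sub, sub_neg_eq_add] at this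

/-- A unital homomorphism from `Z_{2,3}` into `A_∞ ∩ A'` kills all characters. -/
theorem no_character_of_dropHom (hω : (ω : Filter ℕ) ≤ atTop)
    (h : ∃ φ, IsCentralDropHom A φ) : ¬∃ χ : (ℕ → A) → ℂ, IsCentralCharacter A ω χ := by
  obtain ⟨φ, hφ⟩ := h
  rintro ⟨χ, hχ⟩
  have hc : ∀ f : dropAlg23, IsCentralSeq A ω (φ f.1) := fun f => (hφ.central _ f.2).mono hω
  have key : ∀ {f g : ℕ → A}, IsCentralSeq A ω f → IsCentralSeq A ω g →
      Tendsto (fun n => ‖f n - g n‖) atTop (𝓝 0) → χ f = χ g := by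
    intro f g hf hg hfg
    have h0 : χ (f - g) = 0 := hχ.map_null _ (hf.sub hg) (hfg.mono_left hω)
    have := hχ.map_add (f - g) g (hf.sub hg) hg
    rw [sub_add_cancel, h0, zero_add] at this
    exact this
  let ψ : dropAlg23 → ℂ := fun f => χ (φ f.1)
  have ψ_one : ψ 1 = 1 := by
    rw [← hχ.map_one]
    exact key (hc 1) IsCentralSeq.one hφ.map_one
  have ψ_add : ∀ f g, ψ (f + g) = ψ f + ψ g := fun f g => by
    show χ _ = χ _ + χ _
    rw [← hχ.map_add _ _ (hc f) (hc g)]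
    exact key (hc _) ((hc f).add' (hc g)) (hφ.map_add _ _ f.2 g.2)
  have ψ_mul : ∀ f g, ψ (f * g) = ψ f * ψ g := fun f g => by
    show χ _ = χ _ * χ _
    rw [← hχ.map_mul _ _ (hc f) (hc g)]
    exact key (hc _) ((hc f).mul (hc g)) (hφ.map_mul _ _ f.2 g.2)
  have ψ_zero : ψ 0 = 0 := by
    have := ψ_add 0 0
    rw [add_zero] at this
    linear_combination -this
  have hx : ∀ i, ψ (dropGens i) = 0 := fun i => by
    have := ψ_mul (dropGens i) (dropGens i)
    rw [dropGens_sq, ψ_zero] at this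
    exact mul_self_eq_zero.1 this.symm
  have h1 := ψ_one
  rw [← dropInv_mul, ψ_mul, Fin.sum_univ_six] at h1
  simp only [ψ_add, ψ_mul, hx, mul_zero, add_zero] at h1
  exact zero_ne_one h1

/-- Generators give a homomorphism on representatives. -/
theorem exists_dropHom_of_dimensionDrop
    (hhom : ∀ (B : Type u) [CStarAlgebra B] [PartialOrder B] [StarOrderedRing B] (y v : B),
      y * y = 0 → star v * v = 1 - star y * y - y * star y → y * star y * v = v →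
        Nonempty (dropAlg23 →⋆ₐ[ℂ] B))
    (h : HasCentralDimensionDrop A) : ∃ φ, IsCentralDropHom A φ := by
  obtain ⟨y, v, hy, hv, h1, h2, h3⟩ := h
  obtain ⟨Y, hYy, hYc⟩ := exists_rep_of_isCentralSeq hy
  obtain ⟨V, hVv, hVc⟩ := exists_rep_of_isCentralSeq hv
  subst hYy hVv
  let _ := centOrder (A := A) (F := (atTop : Filter ℕ))
  have : StarOrderedRing (centSub A (atTop : Filter ℕ)) := CStarAlgebra.spectralOrderedRing _
  obtain ⟨Φ⟩ := hhom (centSub A (atTop : Filter ℕ)) ⟨_, hYc⟩ ⟨_, hVc⟩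
    (Subtype.ext (by
      push_cast
      rw [← map_mul]
      exact seqMk_eq_zero.2 h1))
    (Subtype.ext (by
      push_cast
      simp only [← map_star, ← map_mul, ← map_one (seqMk A atTop), ← map_sub]
      exact seqMk_eq_iff.2 h2))
    (Subtype.ext (by
      push_cast
      exact seqMk_eq_iff.2 h3))
  choose r hr using fun f : dropAlg23 => seqMk_surjective (Φ f : SeqQuot A atTop)
  classical
  obtain ⟨φ, hφ⟩ : ∃ φ : C(↥(Set.Icc (0 : ℝ) 1), Matrix (Fin 3 × Fin 2) (Fin 3 × Fin 2) ℂ) →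
      ℕ → A, ∀ f : dropAlg23, φ f.1 = ⇑(r f) :=
    ⟨fun f => if hf : f ∈ dropAlg23 then ⇑(r ⟨f, hf⟩) else 0, fun f => dif_pos f.2⟩
  refine ⟨φ, fun f hf => ?_, ?_, fun f g hf hg => ?_, fun f g hf hg => ?_, fun c f hf => ?_,
    fun f hf => ?_⟩
  · rw [show f = ((⟨f, hf⟩ : dropAlg23) :) from rfl, hφ]
    exact isCentralSeq_coe (hr _ ▸ (Φ _).2)
  · rw [show φ 1 = ⇑(r 1) from (congrArg φ (OneMemClass.coe_one dropAlg23).symm).trans (hφ 1)]
    refine (seqMk_eq_iff (f := r 1) (g := 1)).1 ?_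
    simp [hr]
  · rw [hφ ⟨f, hf⟩, hφ ⟨g, hg⟩, show φ (f + g) = _ from hφ (⟨f, hf⟩ + ⟨g, hg⟩)]
    refine (seqMk_eq_iff (f := r (⟨f, hf⟩ + ⟨g, hg⟩)) (g := r ⟨f, hf⟩ + r ⟨g, hg⟩)).1 ?_
    simp only [map_add, hr]; simp
  · rw [hφ ⟨f, hf⟩, hφ ⟨g, hg⟩, show φ (f * g) = _ from hφ (⟨f, hf⟩ * ⟨g, hg⟩)]
    refine (seqMk_eq_iff (f := r (⟨f, hf⟩ * ⟨g, hg⟩)) (g := r ⟨f, hf⟩ * r ⟨g, hg⟩)).1 ?_
    simp only [map_mul, hr]; simp
  · rw [hφ ⟨f, hf⟩, show φ (c • f) = _ from hφ (c • ⟨f, hf⟩)]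
    refine (seqMk_eq_iff (f := r (c • ⟨f, hf⟩)) (g := c • r ⟨f, hf⟩)).1 ?_
    simp only [map_smul, hr]; simp
  · rw [hφ ⟨f, hf⟩, show φ (star f) = _ from hφ (star ⟨f, hf⟩)]
    refine (seqMk_eq_iff (f := r (star ⟨f, hf⟩)) (g := star (r ⟨f, hf⟩))).1 ?_
    simp only [map_star, hr]; simp

/-- The final statement with the dimension drop algebra itself. -/
theorem dropFinal
    (hhom : ∀ (B : Type u) [CStarAlgebra B] [PartialOrder B] [StarOrderedRing B] (y v : B),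
      y * y = 0 → star v * v = 1 - star y * y - y * star y → y * star y * v = v →
        Nonempty (dropAlg23 →⋆ₐ[ℂ] B))
    (hfinal : FinalStatement.{u}) :
    ∀ (A : Type u) [CStarAlgebra A] [Nontrivial A] [TopologicalSpace.SeparableSpace A]
      (ω : Ultrafilter ℕ), (ω : Filter ℕ) ≤ atTop →
        ((¬ ∃ χ : (ℕ → A) → ℂ, IsCentralCharacter A ω χ) ↔ ∃ φ, IsCentralDropHom A φ) :=
  fun A _ _ _ ω hω =>
    ⟨fun h => exists_dropHom_of_dimensionDrop hhom ((hfinal A ω hω).1 h),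
      no_character_of_dropHom hω⟩

end Vale.Agent.P101
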