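import Vale.Agent.P101.Drop.Hom
import Vale.Agent.P101.Drop.Final

/-!
# P101 Drop: from matrix-unit data to the final statement
-/

noncomputable section

namespace Vale.Agent.P101

universe u

theorem dropAlg23_le : dropAlg23 ≤ dimDropAlg := by
  rintro f ⟨⟨η, hη⟩, ⟨ξ, hξ⟩⟩
  refine mem_dimDrop_iff.2 ⟨⟨η, ?_⟩, ⟨ξ, ?_⟩⟩
  · rw [show pt0 = 0 from rfl, hη]
    ext p q
    simp [inLow, Matrix.one_apply]
  · rw [show pt1 = 1 from rfl, hξ]
    ext p q
    simp [inHigh, Matrix.one_apply]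

/-- The final statement, given the matrix-unit data for all generators. -/
theorem dropFinal_of_data
    (hdata : ∀ (B : Type u) [CStarAlgebra B] [PartialOrder B] [StarOrderedRing B] (y v : B),
      y * y = 0 → star v * v = 1 - star y * y - y * star y → y * star y * v = v →
        ∃ T X N M, DropData (B := B) T X N M)
    (hfinal : FinalStatement.{u}) :
    ∀ (A : Type u) [CStarAlgebra A] [Nontrivial A] [TopologicalSpace.SeparableSpace A]
      (ω : Ultrafilter ℕ), (ω : Filter ℕ) ≤ Filter.atTop →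
        ((¬ ∃ χ : (ℕ → A) → ℂ, IsCentralCharacter A ω χ) ↔ ∃ φ, IsCentralDropHom A φ) :=
  dropFinal (fun B _ _ _ y v h1 h2 h3 => by
    obtain ⟨T, X, N, M, d⟩ := hdata B y v h1 h2 h3
    obtain ⟨ψ⟩ := d.exists_hom
    exact ⟨ψ.comp (StarSubalgebra.inclusion dropAlg23_le)⟩) hfinal

end Vale.Agent.P101
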