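import Vale.Agent.P101.Defs

/-!
# P101 Drop: the dimension drop algebra and homomorphisms into the central sequence algebra
-/

noncomputable section

namespace Vale.Agent.P101

universe u

/-- `f` lies in the dimension drop algebra `Z_{2,3}`: `f : [0,1] → M₃ ⊗ M₂` is continuous,
`f 0 ∈ 1 ⊗ M₂` and `f 1 ∈ M₃ ⊗ 1`. -/
def InDimDrop (f : C(↥(Set.Icc (0 : ℝ) 1), Matrix (Fin 3 × Fin 2) (Fin 3 × Fin 2) ℂ)) : Prop :=
  (∃ η : Matrix (Fin 2) (Fin 2) ℂ, f 0 = Matrix.kronecker (1 : Matrix (Fin 3) (Fin 3) ℂ) η) ∧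
    ∃ ξ : Matrix (Fin 3) (Fin 3) ℂ, f 1 = Matrix.kronecker ξ (1 : Matrix (Fin 2) (Fin 2) ℂ)

section
variable (A : Type u) [CStarAlgebra A]

/-- `φ` is a unital *-homomorphism from `Z_{2,3}` (pointwise operations) into `A_∞ ∩ A'`, written
on representatives: every `φ f` is a bounded central sequence, and the laws hold up to norm-null
sequences. -/
structure IsCentralDropHom
    (φ : C(↥(Set.Icc (0 : ℝ) 1), Matrix (Fin 3 × Fin 2) (Fin 3 × Fin 2) ℂ) → ℕ → A) : Prop where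
  central : ∀ f, InDimDrop f → IsCentralSeq A Filter.atTop (φ f)
  map_one : Filter.Tendsto (fun n => ‖φ 1 n - 1‖) Filter.atTop (nhds 0)
  map_add : ∀ f g, InDimDrop f → InDimDrop g →
    Filter.Tendsto (fun n => ‖φ (f + g) n - (φ f n + φ g n)‖) Filter.atTop (nhds 0)
  map_mul : ∀ f g, InDimDrop f → InDimDrop g →
    Filter.Tendsto (fun n => ‖φ (f * g) n - φ f n * φ g n‖) Filter.atTop (nhds 0)
  map_smul : ∀ (c : ℂ) f, InDimDrop f →
    Filter.Tendsto (fun n => ‖φ (c • f) n - c • φ f n‖) Filter.atTop (nhds 0)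
  map_star : ∀ f, InDimDrop f →
    Filter.Tendsto (fun n => ‖φ (star f) n - star (φ f n)‖) Filter.atTop (nhds 0)

end

end Vale.Agent.P101
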