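import Vale.Agent.P101.Core.Cut

/-!
# P101 Drop: the dimension drop algebra and the data of a representation

Index `(a, k) : Fin 3 × Fin 2` for `M₃ ⊗ M₂`.
-/

noncomputable section

namespace Vale.Agent.P101

universe u

/-- `f : [0,1] → M₃ ⊗ M₂` continuous with `f 0 ∈ 1 ⊗ M₂` and `f 1 ∈ M₃ ⊗ 1`: the algebra `Z_{2,3}`
(as a set). -/
def dimDrop : Set C(↥(Set.Icc (0 : ℝ) 1), Matrix (Fin 3 × Fin 2) (Fin 3 × Fin 2) ℂ) :=
  {f | (∃ η : Matrix (Fin 2) (Fin 2) ℂ, ∀ p q, f ⟨0, by norm_num⟩ p q =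
      if p.1 = q.1 then η p.2 q.2 else 0) ∧
    (∃ ξ : Matrix (Fin 3) (Fin 3) ℂ, ∀ p q, f ⟨1, by norm_num⟩ p q =
      if p.2 = q.2 then ξ p.1 q.1 else 0)}

/-- `0` up to `a`, then linearly up to `1` at `b`. -/
def ramp01 (a b t : ℝ) : ℝ := max 0 (min 1 ((t - a) / (b - a)))

/-- The low window: `1` on `t ≤ 1/5`, `0` on `t ≥ 2/5`. -/
def lowWin (t : ℝ) : ℝ := 1 - ramp01 (1 / 5) (2 / 5) t

/-- The high window: `0` on `t ≤ 3/5`, `1` on `t ≥ 4/5`. -/
def highWin (t : ℝ) : ℝ := ramp01 (3 / 5) (4 / 5) t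

/-- The middle window: `1` on `[1/5,4/5]`, supported in `[1/10,9/10]`. -/
def midWin (t : ℝ) : ℝ := ramp01 (1 / 10) (1 / 5) t * (1 - ramp01 (4 / 5) (9 / 10) t)

/-- The flip of the slot index and the `M₂` index on the last two slots. -/
def slotFlip : Fin 3 × Fin 2 → Fin 3 × Fin 2 := fun p =>
  if p = (1, 1) then (2, 0) else if p = (2, 0) then (1, 1) else p

/-- The natural action of `e_{ij} ∈ M₂` on the six slots. -/
def lowRep (i j : Fin 2) (p q : Fin 3 × Fin 2) : ℂ :=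
  if (slotFlip p).1 = (slotFlip q).1 ∧ (slotFlip p).2 = i ∧ (slotFlip q).2 = j then 1 else 0

/-- The natural action of `e_{ab} ∈ M₃` on the six slots. -/
def highRep (a b : Fin 3) (p q : Fin 3 × Fin 2) : ℂ :=
  if p.2 = q.2 ∧ p.1 = a ∧ q.1 = b then 1 else 0

/-- Matrix units over the three windows, enough to define a hom on `dimDrop`. -/
structure DropData {B : Type u} [CStarAlgebra B] [PartialOrder B] [StarOrderedRing B] (T : B)
    (X : Fin 3 × Fin 2 → Fin 3 × Fin 2 → B) (N : Fin 2 → Fin 2 → B) (M : Fin 3 → Fin 3 → B) :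
    Prop where
  nonneg : 0 ≤ T
  le_one : T ≤ 1
  commX : ∀ p q, Commute T (X p q)
  commN : ∀ i j, Commute T (N i j)
  commM : ∀ a b, Commute T (M a b)
  starX : ∀ p q, star (X p q) = X q p
  starN : ∀ i j, star (N i j) = N j i
  starM : ∀ a b, star (M a b) = M b a
  mulX : ∀ p q r s, X p q * X r s = if q = r then cfc midWin T * X p s else 0
  sumX : ∑ p, X p p = cfc midWin T
  mulN : ∀ i j k l, cfc lowWin T * (N i j * N k l) =
    if j = k then cfc lowWin T * N i l else 0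
  sumN : cfc lowWin T * ∑ i, N i i = cfc lowWin T
  mulM : ∀ a b c d, cfc highWin T * (M a b * M c d) =
    if b = c then cfc highWin T * M a d else 0
  sumM : cfc highWin T * ∑ a, M a a = cfc highWin T
  actN : ∀ i j q s, cfc lowWin T * (N i j * X q s) =
    cfc lowWin T * ∑ p, lowRep i j p q • X p s
  actM : ∀ a b q s, cfc highWin T * (M a b * X q s) =
    cfc highWin T * ∑ p, highRep a b p q • X p s

end Vale.Agent.P101
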