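import Vale.Agent.P101.Drop.Defs

/-!
# P101 Drop: a unital star homomorphism on the dimension drop algebra from `DropData`
-/

noncomputable section

namespace Vale.Agent.P101

universe u

open Matrix

/-- The six slots. -/
abbrev Slot : Type := Fin 3 × Fin 2

/-- The ambient algebra `C([0,1], M₃ ⊗ M₂)`. -/
abbrev MatPath : Type := C(↥(Set.Icc (0 : ℝ) 1), Matrix Slot Slot ℂ)

/-- `η ↦ 1 ⊗ η`. -/
def inLow (η : Matrix (Fin 2) (Fin 2) ℂ) : Matrix Slot Slot ℂ :=
  Matrix.of fun p q => if p.1 = q.1 then η p.2 q.2 else 0

/-- `ξ ↦ ξ ⊗ 1`. -/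
def inHigh (ξ : Matrix (Fin 3) (Fin 3) ℂ) : Matrix Slot Slot ℂ :=
  Matrix.of fun p q => if p.2 = q.2 then ξ p.1 q.1 else 0

theorem inLow_mul (a b : Matrix (Fin 2) (Fin 2) ℂ) : inLow a * inLow b = inLow (a * b) := by
  ext p q
  simp only [Matrix.mul_apply, inLow, Matrix.of_apply, Fintype.sum_prod_type, ite_mul, zero_mul,
    mul_ite, mul_zero]
  rw [Finset.sum_eq_single p.1]
  · split_ifs <;> simp_all
  · intro b _ hb
    simp [Ne.symm hb]
  · simp

theorem inHigh_mul (a b : Matrix (Fin 3) (Fin 3) ℂ) : inHigh a * inHigh b = inHigh (a * b) := by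
  ext p q
  simp only [Matrix.mul_apply, inHigh, Matrix.of_apply, Fintype.sum_prod_type, ite_mul, zero_mul,
    mul_ite, mul_zero]
  rw [Finset.sum_comm, Finset.sum_eq_single p.2]
  · split_ifs <;> simp_all
  · intro b _ hb
    simp [Ne.symm hb]
  · simp

theorem inLow_star (a : Matrix (Fin 2) (Fin 2) ℂ) : star (inLow a) = inLow (star a) := by
  ext p q
  simp only [Matrix.star_apply, inLow, Matrix.of_apply]
  split_ifs <;> simp_all

theorem inHigh_star (a : Matrix (Fin 3) (Fin 3) ℂ) : star (inHigh a) = inHigh (star a) := by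
  ext p q
  simp only [Matrix.star_apply, inHigh, Matrix.of_apply]
  split_ifs <;> simp_all

theorem inLow_one (c : ℂ) : inLow (algebraMap ℂ _ c) = algebraMap ℂ _ c := by
  ext p q
  simp only [inLow, Matrix.of_apply, Matrix.algebraMap_matrix_apply]
  split_ifs <;> simp_all [Prod.ext_iff]

theorem inHigh_one (c : ℂ) : inHigh (algebraMap ℂ _ c) = algebraMap ℂ _ c := by
  ext p q
  simp only [inHigh, Matrix.of_apply, Matrix.algebraMap_matrix_apply]
  split_ifs <;> simp_all [Prod.ext_iff]

theorem inLow_add (a b : Matrix (Fin 2) (Fin 2) ℂ) : inLow a + inLow b = inLow (a + b) := by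
  ext p q
  simp only [Matrix.add_apply, inLow, Matrix.of_apply]
  split_ifs <;> simp

theorem inHigh_add (a b : Matrix (Fin 3) (Fin 3) ℂ) : inHigh a + inHigh b = inHigh (a + b) := by
  ext p q
  simp only [Matrix.add_apply, inHigh, Matrix.of_apply]
  split_ifs <;> simp

/-- The point `0`. -/
def pt0 : ↥(Set.Icc (0 : ℝ) 1) := ⟨0, by norm_num⟩

/-- The point `1`. -/
def pt1 : ↥(Set.Icc (0 : ℝ) 1) := ⟨1, by norm_num⟩

theorem mem_dimDrop_iff {f : MatPath} :
    f ∈ dimDrop ↔ (∃ η, f pt0 = inLow η) ∧ ∃ ξ, f pt1 = inHigh ξ := by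
  refine and_congr ?_ ?_ <;> refine exists_congr fun η => ?_
  · exact ⟨fun h => Matrix.ext fun p q => h p q, fun h p q => congrFun (congrFun h p) q⟩
  · exact ⟨fun h => Matrix.ext fun p q => h p q, fun h p q => congrFun (congrFun h p) q⟩

/-- The dimension drop algebra `Z_{2,3}`, with carrier `dimDrop`. -/
def dimDropAlg : StarSubalgebra ℂ MatPath where
  carrier := dimDrop
  mul_mem' {f g} hf hg := by
    obtain ⟨⟨a, ha⟩, b, hb⟩ := mem_dimDrop_iff.1 hf
    obtain ⟨⟨c, hc⟩, d, hd⟩ := mem_dimDrop_iff.1 hg
    exact mem_dimDrop_iff.2 ⟨⟨a * c, by simp [ha, hc, inLow_mul]⟩,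
      ⟨b * d, by simp [hb, hd, inHigh_mul]⟩⟩
  add_mem' {f g} hf hg := by
    obtain ⟨⟨a, ha⟩, b, hb⟩ := mem_dimDrop_iff.1 hf
    obtain ⟨⟨c, hc⟩, d, hd⟩ := mem_dimDrop_iff.1 hg
    exact mem_dimDrop_iff.2 ⟨⟨a + c, by simp [ha, hc, inLow_add]⟩,
      ⟨b + d, by simp [hb, hd, inHigh_add]⟩⟩
  algebraMap_mem' c := mem_dimDrop_iff.2 ⟨⟨_, (inLow_one c).symm⟩, ⟨_, (inHigh_one c).symm⟩⟩
  star_mem' {f} hf := by
    obtain ⟨⟨a, ha⟩, b, hb⟩ := mem_dimDrop_iff.1 hf
    exact mem_dimDrop_iff.2 ⟨⟨star a, by simp [ha, inLow_star]⟩, ⟨star b, by simp [hb, inHigh_star]⟩⟩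

/-- The projection onto the antisymmetric vector of the two slots that get flipped. -/
def antiP : Matrix Slot Slot ℂ :=
  Matrix.of fun p q =>
    if (p = (1, 1) ∨ p = (2, 0)) ∧ (q = (1, 1) ∨ q = (2, 0)) then
      (if p = q then (1 / 2 : ℂ) else -1 / 2) else 0

theorem antiP_sq : antiP * antiP = antiP := by
  ext p q
  fin_cases p <;> fin_cases q <;>
    simp [antiP, Matrix.mul_apply, Fintype.sum_prod_type, Fin.sum_univ_three] <;> norm_num

theorem antiP_star : star antiP = antiP := by
  ext p q
  fin_cases p <;> fin_cases q <;> simp [antiP, Matrix.star_apply]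

theorem slotFlip_slotFlip (p : Slot) : slotFlip (slotFlip p) = p := by
  fin_cases p <;> simp [slotFlip]

theorem one_sub_two_antiP (M : Matrix Slot Slot ℂ) (p q : Slot) :
    ((1 + (-2 : ℂ) • antiP) * M * (1 + (-2 : ℂ) • antiP)) p q = M (slotFlip p) (slotFlip q) := by
  have h : (1 + (-2 : ℂ) • antiP) = Matrix.of fun p q => if slotFlip p = q then (1 : ℂ) else 0 := by
    ext p q
    fin_cases p <;> fin_cases q <;> simp [antiP, slotFlip] <;> norm_num
  rw [h]
  simp only [Matrix.mul_apply, Matrix.of_apply, ite_mul, one_mul, zero_mul, mul_ite, mul_one,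
    mul_zero, Finset.sum_ite_eq, Finset.mem_univ, if_true]
  rw [Finset.sum_eq_single (slotFlip q)]
  · simp [slotFlip_slotFlip]
  · intro b _ hb
    rw [if_neg]
    exact fun e => hb (by rw [← e, slotFlip_slotFlip])
  · simp

/-- The phase. -/
def phase (t : ℝ) : ℂ := Complex.exp ((Real.pi * (1 - ramp01 (2 / 5) (3 / 5) t) : ℝ) * Complex.I)

/-- The path of unitaries from the flip to `1`. -/
def rot (t : ℝ) : Matrix Slot Slot ℂ := 1 + (phase t - 1) • antiP

theorem phase_mul_star (t : ℝ) : phase t * star (phase t) = 1 := by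
  rw [Complex.star_def, Complex.mul_conj', phase, Complex.norm_exp_ofReal_mul_I]
  norm_num

theorem rot_star_mul (t : ℝ) : star (rot t) * rot t = 1 := by
  have h := phase_mul_star t
  rw [rot, star_add, star_one, star_smul, antiP_star, star_sub, star_one, mul_add, add_mul, add_mul,
    one_mul, mul_one, one_mul, smul_mul_smul_comm, antiP_sq, add_assoc, ← add_smul, ← add_smul,
    show star (phase t) - 1 + (phase t - 1 + (star (phase t) - 1) * (phase t - 1)) = 0 by
      linear_combination h, zero_smul, add_zero]

theorem continuous_ramp01 (a b : ℝ) : Continuous (ramp01 a b) := by unfold ramp01; fun_prop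

theorem ramp01_eq_zero {a b t : ℝ} (hab : a < b) (h : t ≤ a) : ramp01 a b t = 0 := by
  rw [ramp01, max_eq_left]
  exact (min_le_right _ _).trans (div_nonpos_of_nonpos_of_nonneg (by linarith) (by linarith))

theorem ramp01_eq_one {a b t : ℝ} (hab : a < b) (h : b ≤ t) : ramp01 a b t = 1 := by
  have h1 : 1 ≤ (t - a) / (b - a) := by rw [le_div_iff₀ (by linarith)]; linarith
  rw [ramp01, min_eq_left h1, max_eq_right zero_le_one]

theorem continuous_rot : Continuous rot := by
  unfold rot phase
  exact continuous_const.add (((Complex.continuous_exp.comp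
    ((Complex.continuous_ofReal.comp (continuous_const.mul
      (continuous_const.sub (continuous_ramp01 _ _)))).mul continuous_const)).sub
        continuous_const).smul continuous_const)

/-- The reparametrisation, constant outside `[2/5,3/5]`. -/
def repar (t : ℝ) : ↥(Set.Icc (0 : ℝ) 1) :=
  ⟨ramp01 (2 / 5) (3 / 5) t, le_max_left _ _, max_le zero_le_one (min_le_left _ _)⟩

/-- The rotated reparametrised path. -/
def twist (f : MatPath) (t : ℝ) : Matrix Slot Slot ℂ := rot t * f (repar t) * star (rot t)

theorem continuous_twist (f : MatPath) : Continuous (twist f) :=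
  (continuous_rot.matrix_mul (f.continuous.comp
    ((continuous_ramp01 _ _).subtype_mk _))).matrix_mul continuous_rot.star

theorem twist_mul (f g : MatPath) (t : ℝ) : twist (f * g) t = twist f t * twist g t := by
  simp only [twist, ContinuousMap.mul_apply]
  rw [show rot t * f (repar t) * star (rot t) * (rot t * g (repar t) * star (rot t)) =
    rot t * f (repar t) * (star (rot t) * rot t) * g (repar t) * star (rot t) by
      simp only [mul_assoc], rot_star_mul, mul_one, ← mul_assoc]

theorem twist_of_le (f : MatPath) {η} (hη : f pt0 = inLow η) {t : ℝ} (h : t ≤ 2 / 5) (p q : Slot) :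
    twist f t p q = inLow η (slotFlip p) (slotFlip q) := by
  have hr : repar t = pt0 := Subtype.ext (ramp01_eq_zero (by norm_num) h)
  have hph : phase t - 1 = -2 := by
    rw [phase, ramp01_eq_zero (by norm_num) h, sub_zero, mul_one, Complex.exp_pi_mul_I]; norm_num
  have hs : star (rot t) = rot t := by
    rw [rot, hph, star_add, star_one, star_smul, antiP_star, star_neg]
    norm_num
  rw [twist, hs, hr, hη, rot, hph]
  exact one_sub_two_antiP _ p q

theorem twist_of_ge (f : MatPath) {t : ℝ} (h : 3 / 5 ≤ t) : twist f t = f pt1 := by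
  have hr : repar t = pt1 := Subtype.ext (ramp01_eq_one (by norm_num) h)
  rw [twist, hr, rot, phase, ramp01_eq_one (by norm_num) h]
  simp

section

set_option linter.unusedSectionVars false

variable {B : Type u} [CStarAlgebra B] [PartialOrder B] [StarOrderedRing B] {T : B}

/-- Complex functions of `T`. -/
def evT (T : B) (h : ℝ → ℂ) : B := cfc (fun z : ℂ => h z.re) T

theorem evT_real (hT : IsSelfAdjoint T) (g : ℝ → ℝ) : evT T (fun t => (g t : ℂ)) = cfc g T :=
  (cfc_real_eq_complex g).symm

theorem evT_add (g h : ℝ → ℂ) (hg : Continuous g) (hh : Continuous h) :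
    evT T (fun t => g t + h t) = evT T g + evT T h :=
  cfc_add T (fun z : ℂ => g z.re) (fun z => h z.re) (hg.comp Complex.continuous_re).continuousOn
    (hh.comp Complex.continuous_re).continuousOn

theorem evT_mul (g h : ℝ → ℂ) (hg : Continuous g) (hh : Continuous h) :
    evT T (fun t => g t * h t) = evT T g * evT T h :=
  cfc_mul (fun z : ℂ => g z.re) (fun z => h z.re) T (hg.comp Complex.continuous_re).continuousOn
    (hh.comp Complex.continuous_re).continuousOn

theorem evT_star (g : ℝ → ℂ) : evT T (fun t => star (g t)) = star (evT T g) :=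
  cfc_star (fun z : ℂ => g z.re) T

theorem evT_commute {a : B} (hT : IsSelfAdjoint T) (h : Commute T a) (g : ℝ → ℂ) :
    Commute (evT T g) a :=
  Commute.cfc h (by rw [hT.star_eq]; exact h) _

theorem evT_congr (h0 : 0 ≤ T) (h1 : T ≤ 1) {g h : ℝ → ℂ}
    (e : ∀ t ∈ Set.Icc (0 : ℝ) 1, g t = h t) : evT T g = evT T h := by
  refine cfc_congr fun z hz => e z.re ?_
  have hr : IsSelfAdjoint T := h0.isSelfAdjoint
  have hmem : z.re ∈ spectrum ℝ T := by
    have := hr.spectrumRestricts
    exact this.apply_mem hz
  exact ⟨spectrum_nonneg_of_nonneg h0 hmem, (CFC.le_one_iff (R := ℝ) T hr).1 h1 _ hmem⟩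

theorem evT_zero : evT T (fun _ => 0) = 0 := cfc_const_zero ℂ T

theorem evT_const (hT : IsSelfAdjoint T) (c : ℂ) : evT T (fun _ => c) = algebraMap ℂ B c :=
  cfc_const c T hT.isStarNormal

theorem evT_smul (c : ℂ) (g : ℝ → ℂ) (hg : Continuous g) :
    evT T (fun t => c * g t) = c • evT T g :=
  cfc_const_mul c (fun z : ℂ => g z.re) T (hg.comp Complex.continuous_re).continuousOn

/-- The part of the hom carried by the six slots. -/
def midPart (T : B) (X : Slot → Slot → B) (G : ℝ → Matrix Slot Slot ℂ) : B :=
  ∑ p, ∑ q, evT T (fun t => G t p q) * X p q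

theorem midPart_add (X : Slot → Slot → B) (G H : ℝ → Matrix Slot Slot ℂ) (hG : Continuous G)
    (hH : Continuous H) : midPart T X (fun t => G t + H t) = midPart T X G + midPart T X H := by
  simp only [midPart, Matrix.add_apply, evT_add _ _ (hG.matrix_elem _ _) (hH.matrix_elem _ _),
    add_mul, Finset.sum_add_distrib]

theorem midPart_congr (h0 : 0 ≤ T) (h1 : T ≤ 1) (X : Slot → Slot → B)
    {G H : ℝ → Matrix Slot Slot ℂ} (e : ∀ t ∈ Set.Icc (0 : ℝ) 1, G t = H t) :
    midPart T X G = midPart T X H := by
  simp only [midPart]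
  exact Finset.sum_congr rfl fun p _ => Finset.sum_congr rfl fun q _ => by
    rw [evT_congr h0 h1 fun t ht => congrFun (congrFun (e t ht) p) q]

variable {X : Slot → Slot → B} {N : Fin 2 → Fin 2 → B} {M : Fin 3 → Fin 3 → B}

theorem DropData.mid_mul (d : DropData T X N M) {G H : ℝ → Matrix Slot Slot ℂ} (hG : Continuous G)
    (hH : Continuous H) :
    midPart T X G * midPart T X H =
      midPart T X (fun t => (midWin t : ℂ) • (G t * H t)) := by
  have hT := d.nonneg.isSelfAdjoint
  have hw : Continuous fun t => (midWin t : ℂ) := Complex.continuous_ofReal.comp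
    ((continuous_ramp01 _ _).mul (continuous_const.sub (continuous_ramp01 _ _)))
  rw [midPart, midPart, midPart, Finset.sum_mul]
  refine Finset.sum_congr rfl fun p _ => ?_
  rw [Finset.sum_mul]
  have key : ∀ q r s, evT T (fun t => G t p q) * X p q * (evT T (fun t => H t r s) * X r s) =
      if q = r then evT T (fun t => (midWin t : ℂ) * (G t p q * H t r s)) * X p s else 0 := by
    intro q r s
    rw [show evT T (fun t => G t p q) * X p q * (evT T (fun t => H t r s) * X r s) =
        evT T (fun t => G t p q) * (X p q * evT T (fun t => H t r s)) * X r s by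
          simp only [mul_assoc], ← (evT_commute hT (d.commX p q) _).eq]
    rw [show evT T (fun t => G t p q) * (evT T (fun t => H t r s) * X p q) * X r s =
        evT T (fun t => G t p q) * evT T (fun t => H t r s) * (X p q * X r s) by
          simp only [mul_assoc], d.mulX, mul_ite, mul_zero]
    split_ifs with h
    · rw [evT_mul (fun t => (midWin t : ℂ)) (fun t => G t p q * H t r s) hw
          ((hG.matrix_elem p q).mul (hH.matrix_elem r s)),
        evT_mul (fun t => G t p q) (fun t => H t r s) (hG.matrix_elem p q) (hH.matrix_elem r s),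
        evT_real hT, ← mul_assoc,
        ((evT_commute hT (Commute.refl T) _).mul_left
          (evT_commute hT (Commute.refl T) _) |>.symm.cfc_real midWin).eq]
    · rfl
  simp only [Finset.mul_sum, key]
  have e : ∀ s, evT T (fun t => ((midWin t : ℂ) • (G t * H t)) p s) =
      ∑ q, evT T (fun t => (midWin t : ℂ) * (G t p q * H t q s)) := by
    intro s
    rw [show (fun t => ((midWin t : ℂ) • (G t * H t)) p s) =
        (fun t => ∑ q, (midWin t : ℂ) * (G t p q * H t q s)) from funext fun t => by
          rw [Matrix.smul_apply, Matrix.mul_apply, smul_eq_mul, Finset.mul_sum]]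
    exact cfc_sum_univ _ _ fun q => (((hw.mul ((hG.matrix_elem p q).mul (hH.matrix_elem q s))).comp
      Complex.continuous_re)).continuousOn
  simp only [e, Finset.sum_mul]
  conv_rhs => rw [Finset.sum_comm]
  refine Finset.sum_congr rfl fun q _ => ?_
  rw [Finset.sum_eq_single q (fun r _ hr => Finset.sum_eq_zero fun s _ => if_neg (Ne.symm hr))
    (fun h => absurd (Finset.mem_univ q) h)]
  exact Finset.sum_congr rfl fun s _ => if_pos rfl

/-- The low end of the hom. -/
def endPart {n : ℕ} (T : B) (w : ℝ → ℝ) (N : Fin n → Fin n → B) (η : Matrix (Fin n) (Fin n) ℂ) : B :=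
  ∑ i, ∑ j, η i j • (cfc w T * N i j)

theorem end_mid {n : ℕ} (hT : IsSelfAdjoint T) (w : ℝ → ℝ) (hw : Continuous w)
    (N : Fin n → Fin n → B) (ρ : Fin n → Fin n → Slot → Slot → ℂ)
    (hN : ∀ i j, Commute T (N i j))
    (act : ∀ i j q s, cfc w T * (N i j * X q s) = cfc w T * ∑ p, ρ i j p q • X p s)
    (η : Matrix (Fin n) (Fin n) ℂ) {H : ℝ → Matrix Slot Slot ℂ} (hH : Continuous H) :
    endPart T w N η * midPart T X H =
      midPart T X (fun t => Matrix.of (fun p q => (w t : ℂ) * ∑ i, ∑ j, η i j * ρ i j p q) * H t) := by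
  rw [endPart, midPart, midPart]
  have key : ∀ i j q s, cfc w T * N i j * (evT T (fun t => H t q s) * X q s) =
      ∑ p, ρ i j p q • (evT T (fun t => (w t : ℂ) * H t q s) * X p s) := by
    intro i j q s
    rw [evT_mul (fun t => (w t : ℂ)) (fun t => H t q s) (Complex.continuous_ofReal.comp hw)
        (hH.matrix_elem q s), evT_real hT,
      show cfc w T * N i j * (evT T (fun t => H t q s) * X q s) =
        cfc w T * (N i j * evT T (fun t => H t q s)) * X q s by simp only [mul_assoc],
      ← (evT_commute hT (hN i j) _).eq, ← mul_assoc,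
      ((evT_commute hT (Commute.refl T) _).symm.cfc_real w).eq,
      mul_assoc (evT T _ * cfc w T), mul_assoc (evT T _), act, ← mul_assoc, Finset.mul_sum]
    simp only [mul_smul_comm]
  have e : ∀ p s, evT T (fun t => (Matrix.of
      (fun p q => (w t : ℂ) * ∑ i, ∑ j, η i j * ρ i j p q) * H t) p s) =
      ∑ q, (∑ i, ∑ j, η i j * ρ i j p q) • evT T (fun t => (w t : ℂ) * H t q s) := by
    intro p s
    rw [Finset.sum_congr rfl fun q _ => (evT_smul (T := T) (∑ i, ∑ j, η i j * ρ i j p q)
      (fun t => (w t : ℂ) * H t q s)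
      ((Complex.continuous_ofReal.comp hw).mul (hH.matrix_elem q s))).symm]
    rw [show (fun t => (Matrix.of (fun p q => (w t : ℂ) * ∑ i, ∑ j, η i j * ρ i j p q) * H t) p s) =
      (fun t => ∑ q, (∑ i, ∑ j, η i j * ρ i j p q) * ((w t : ℂ) * H t q s)) from
        funext fun t => by
          rw [Matrix.mul_apply]
          exact Finset.sum_congr rfl fun q _ => by rw [Matrix.of_apply]; ring]
    exact cfc_sum_univ (fun q (z : ℂ) =>
      (∑ i, ∑ j, η i j * ρ i j p q) * ((w z.re : ℂ) * H z.re q s)) T fun q => ((continuous_const.mul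
      ((Complex.continuous_ofReal.comp hw).mul (hH.matrix_elem q s))).comp
        Complex.continuous_re).continuousOn
  calc (∑ i, ∑ j, η i j • (cfc w T * N i j)) * ∑ q, ∑ s, evT T (fun t => H t q s) * X q s
      = ∑ i, ∑ j, ∑ q, ∑ s, ∑ p,
          (η i j * ρ i j p q) • (evT T (fun t => (w t : ℂ) * H t q s) * X p s) := by
        rw [Finset.sum_mul]
        refine Finset.sum_congr rfl fun i _ => ?_
        rw [Finset.sum_mul]
        refine Finset.sum_congr rfl fun j _ => ?_
        rw [smul_mul_assoc, Finset.mul_sum, Finset.smul_sum]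
        refine Finset.sum_congr rfl fun q _ => ?_
        rw [Finset.mul_sum, Finset.smul_sum]
        refine Finset.sum_congr rfl fun s _ => ?_
        rw [key, Finset.smul_sum]
        exact Finset.sum_congr rfl fun p _ => smul_smul _ _ _
    _ = ∑ p, ∑ s, ∑ q, ∑ i, ∑ j,
          (η i j * ρ i j p q) • (evT T (fun t => (w t : ℂ) * H t q s) * X p s) := by
        simp only [← Fintype.sum_prod_type']
        exact Fintype.sum_equiv
          { toFun := fun x : Fin n × Fin n × Slot × Slot × Slot =>
              ((x.2.2.2.2, x.2.2.2.1, x.2.2.1, x.1, x.2.1) : Slot × Slot × Slot × Fin n × Fin n)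
            invFun := fun y => (y.2.2.2.1, y.2.2.2.2, y.2.2.1, y.2.1, y.1)
            left_inv := fun _ => rfl
            right_inv := fun _ => rfl } _ _ fun _ => rfl
    _ = _ := by
        refine Finset.sum_congr rfl fun p _ => Finset.sum_congr rfl fun s _ => ?_
        rw [e, Finset.sum_mul]
        refine Finset.sum_congr rfl fun q _ => ?_
        rw [smul_mul_assoc, Finset.sum_smul]
        exact Finset.sum_congr rfl fun i _ => (Finset.sum_smul).symm

theorem endPart_mul {n : ℕ} (w : ℝ → ℝ) (hw : Continuous w)
    (N : Fin n → Fin n → B) (hN : ∀ i j, Commute T (N i j))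
    (hmul : ∀ i j k l, cfc w T * (N i j * N k l) = if j = k then cfc w T * N i l else 0)
    (η η' : Matrix (Fin n) (Fin n) ℂ) :
    endPart T w N η * endPart T w N η' =
      endPart T (fun t => w t * w t) N (η * η') := by
  rw [endPart, endPart, endPart]
  have key : ∀ i j k l, cfc w T * N i j * (cfc w T * N k l) =
      if j = k then cfc (fun t => w t * w t) T * N i l else 0 := by
    intro i j k l
    rw [mul_assoc, ← mul_assoc (N i j), ← ((hN i j).cfc_real w).eq, mul_assoc (cfc w T) (N i j),
      hmul, mul_ite, mul_zero, ← mul_assoc, ← cfc_mul w w T hw.continuousOn hw.continuousOn]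
  rw [Finset.sum_mul]
  refine Finset.sum_congr rfl fun i _ => ?_
  rw [Finset.sum_mul]
  calc ∑ j, η i j • (cfc w T * N i j) * ∑ k, ∑ l, η' k l • (cfc w T * N k l)
      = ∑ j, ∑ k, ∑ l, if j = k then (η i j * η' k l) • (cfc (fun t => w t * w t) T * N i l)
          else 0 := by
        refine Finset.sum_congr rfl fun j _ => ?_
        rw [Finset.mul_sum]
        refine Finset.sum_congr rfl fun k _ => ?_
        rw [Finset.mul_sum]
        exact Finset.sum_congr rfl fun l _ => by rw [smul_mul_smul_comm, key, smul_ite, smul_zero]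
    _ = ∑ j, ∑ l, (η i j * η' j l) • (cfc (fun t => w t * w t) T * N i l) := by
        refine Finset.sum_congr rfl fun j _ => ?_
        rw [Finset.sum_eq_single j (fun k _ hk => Finset.sum_eq_zero fun l _ => if_neg (Ne.symm hk))
          (fun h => absurd (Finset.mem_univ j) h)]
        exact Finset.sum_congr rfl fun l _ => if_pos rfl
    _ = _ := by
        rw [Finset.sum_comm]
        exact Finset.sum_congr rfl fun l _ => by rw [Matrix.mul_apply, Finset.sum_smul]

theorem endPart_mul_zero {m n : ℕ} {w v : ℝ → ℝ} (hw : Continuous w)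
    (hv : Continuous v) (h : ∀ t, w t * v t = 0) (N : Fin n → Fin n → B) (M : Fin m → Fin m → B)
    (hN : ∀ i j, Commute T (N i j)) (η : Matrix (Fin n) (Fin n) ℂ) (ξ : Matrix (Fin m) (Fin m) ℂ) :
    endPart T w N η * endPart T v M ξ = 0 := by
  simp only [endPart, Finset.sum_mul, Finset.mul_sum, smul_mul_smul_comm]
  refine Finset.sum_eq_zero fun i _ => Finset.sum_eq_zero fun j _ => Finset.sum_eq_zero fun k _ =>
    Finset.sum_eq_zero fun l _ => ?_
  rw [mul_assoc, ← mul_assoc (N _ _), ← ((hN _ _).cfc_real v).eq, ← mul_assoc, ← mul_assoc,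
    ← cfc_mul w v T hw.continuousOn hv.continuousOn]
  simp only [h, cfc_const_zero, zero_mul, smul_zero]

theorem star_midPart (d : DropData T X N M) (G : ℝ → Matrix Slot Slot ℂ) :
    star (midPart T X G) = midPart T X (fun t => star (G t)) := by
  have hT := d.nonneg.isSelfAdjoint
  rw [midPart, midPart, star_sum]
  simp only [star_sum, star_mul, d.starX, ← evT_star, Matrix.star_apply]
  rw [Finset.sum_comm]
  exact Finset.sum_congr rfl fun p _ => Finset.sum_congr rfl fun q _ =>
    ((evT_commute hT (d.commX p q) _).eq).symm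

theorem midPart_scalar (d : DropData T X N M) (h : ℝ → ℝ) (hh : Continuous h) :
    midPart T X (fun t => (h t : ℂ) • 1) = cfc (fun t => h t * midWin t) T := by
  have hT := d.nonneg.isSelfAdjoint
  have hm : Continuous midWin :=
    (continuous_ramp01 _ _).mul (continuous_const.sub (continuous_ramp01 _ _))
  rw [cfc_mul h midWin T hh.continuousOn hm.continuousOn, ← d.sumX, Finset.mul_sum, midPart]
  refine Finset.sum_congr rfl fun p _ => ?_
  rw [Finset.sum_eq_single p]
  · rw [show (fun t => ((h t : ℂ) • (1 : Matrix Slot Slot ℂ)) p p) = (fun t => (h t : ℂ)) from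
      funext fun t => by simp, evT_real hT]
  · intro q _ hq
    rw [show (fun t => ((h t : ℂ) • (1 : Matrix Slot Slot ℂ)) p q) = (fun _ => 0) from
      funext fun t => by simp [Ne.symm hq], evT_zero, zero_mul]
  · simp

theorem endPart_mul_cfc {n : ℕ} (w : ℝ → ℝ) (hw : Continuous w) (g : ℝ → ℝ) (hg : Continuous g)
    (N : Fin n → Fin n → B) (hN : ∀ i j, Commute T (N i j)) (η : Matrix (Fin n) (Fin n) ℂ) :
    endPart T w N η * cfc g T = endPart T (fun t => w t * g t) N η := by
  simp only [endPart, Finset.sum_mul, smul_mul_assoc]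
  refine Finset.sum_congr rfl fun i _ => Finset.sum_congr rfl fun j _ => ?_
  rw [mul_assoc, ← ((hN i j).cfc_real g).eq, ← mul_assoc, ← cfc_mul w g T hw.continuousOn hg.continuousOn]

theorem star_endPart {n : ℕ} (w : ℝ → ℝ)
    (N : Fin n → Fin n → B) (hN : ∀ i j, Commute T (N i j)) (hs : ∀ i j, star (N i j) = N j i)
    (η : Matrix (Fin n) (Fin n) ℂ) : star (endPart T w N η) = endPart T w N (star η) := by
  simp only [endPart, star_sum, star_smul, star_mul, hs, Matrix.star_apply]
  rw [Finset.sum_comm]
  refine Finset.sum_congr rfl fun i _ => Finset.sum_congr rfl fun j _ => ?_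
  rw [(cfc_predicate w T : IsSelfAdjoint _).star_eq, ((hN i j).cfc_real w).symm.eq]

/-- The matrix of an end part on the six slots. -/
def endRep {n : ℕ} (ρ : Fin n → Fin n → Slot → Slot → ℂ) (η : Matrix (Fin n) (Fin n) ℂ) :
    Matrix Slot Slot ℂ :=
  Matrix.of fun p q => ∑ i, ∑ j, η i j * ρ i j p q

theorem end_mid' {n : ℕ} (hT : IsSelfAdjoint T) (w : ℝ → ℝ) (hw : Continuous w)
    (N : Fin n → Fin n → B) (ρ : Fin n → Fin n → Slot → Slot → ℂ)
    (hN : ∀ i j, Commute T (N i j))
    (act : ∀ i j q s, cfc w T * (N i j * X q s) = cfc w T * ∑ p, ρ i j p q • X p s)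
    (η : Matrix (Fin n) (Fin n) ℂ) {H : ℝ → Matrix Slot Slot ℂ} (hH : Continuous H) :
    endPart T w N η * midPart T X H =
      midPart T X (fun t => ((w t : ℂ) • endRep ρ η) * H t) := by
  rw [end_mid hT w hw N ρ hN act η hH]
  refine congrArg _ (funext fun t => ?_)
  congr 1

theorem lowRep_eq (η : Matrix (Fin 2) (Fin 2) ℂ) (p q : Slot) :
    endRep lowRep η p q = inLow η (slotFlip p) (slotFlip q) := by
  simp only [endRep, inLow, lowRep, Matrix.of_apply, Fin.sum_univ_two]
  generalize slotFlip p = a
  generalize slotFlip q = b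
  obtain ⟨a1, a2⟩ := a; obtain ⟨b1, b2⟩ := b
  fin_cases a2 <;> fin_cases b2 <;> simp

theorem highRep_eq (ξ : Matrix (Fin 3) (Fin 3) ℂ) : endRep highRep ξ = inHigh ξ := by
  ext p q
  simp only [endRep, inHigh, highRep, Matrix.of_apply, Fin.sum_univ_three]
  obtain ⟨a1, a2⟩ := p; obtain ⟨b1, b2⟩ := q
  fin_cases a1 <;> fin_cases b1 <;> simp

theorem endRep_low_star (η : Matrix (Fin 2) (Fin 2) ℂ) :
    star (endRep lowRep η) = endRep lowRep (star η) := by
  ext p q
  rw [Matrix.star_apply, lowRep_eq, lowRep_eq, ← inLow_star, Matrix.star_apply]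

end

/-- The value in `M₂` of an element of the dimension drop algebra at `0`. -/
def lowVal (f : MatPath) : Matrix (Fin 2) (Fin 2) ℂ := Matrix.of fun i j => f pt0 (0, i) (0, j)

/-- The value in `M₃` of an element of the dimension drop algebra at `1`. -/
def highVal (f : MatPath) : Matrix (Fin 3) (Fin 3) ℂ := Matrix.of fun a b => f pt1 (a, 0) (b, 0)

theorem lowVal_of {f : MatPath} {η} (h : f pt0 = inLow η) : lowVal f = η := by
  ext i j; simp [lowVal, h, inLow]

theorem highVal_of {f : MatPath} {ξ} (h : f pt1 = inHigh ξ) : highVal f = ξ := by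
  ext i j; simp [highVal, h, inHigh]

theorem inLow_lowVal {f : MatPath} (hf : f ∈ dimDropAlg) : f pt0 = inLow (lowVal f) := by
  obtain ⟨⟨η, h⟩, -⟩ := mem_dimDrop_iff.1 hf
  rw [h]; congr 1; ext i j; simp [lowVal, h, inLow]

theorem inHigh_highVal {f : MatPath} (hf : f ∈ dimDropAlg) : f pt1 = inHigh (highVal f) := by
  obtain ⟨-, ξ, h⟩ := mem_dimDrop_iff.1 hf
  rw [h]; congr 1; ext i j; simp [highVal, h, inHigh]

/-- The middle window left over by the two end windows. -/
def restWin (t : ℝ) : ℝ := 1 - lowWin t - highWin t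

theorem continuous_lowWin : Continuous lowWin := continuous_const.sub (continuous_ramp01 _ _)

theorem continuous_highWin : Continuous highWin := continuous_ramp01 _ _

theorem continuous_restWin : Continuous restWin :=
  (continuous_const.sub continuous_lowWin).sub continuous_highWin

theorem lowWin_mul_highWin (t : ℝ) : lowWin t * highWin t = 0 := by
  rcases le_total t (2 / 5) with h | h
  · rw [highWin, ramp01_eq_zero (by norm_num) (by linarith), mul_zero]
  · rw [lowWin, ramp01_eq_one (by norm_num) h, sub_self, zero_mul]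

theorem mid_eq_one {t : ℝ} (h1 : 1 / 5 ≤ t) (h2 : t ≤ 4 / 5) : midWin t = 1 := by
  rw [midWin, ramp01_eq_one (by norm_num) h1, ramp01_eq_zero (by norm_num) h2, sub_zero, one_mul]

theorem restWin_mul_mid (t : ℝ) : restWin t * midWin t = restWin t := by
  rcases le_total t (1 / 5) with h | h
  · rw [restWin, lowWin, highWin, ramp01_eq_zero (by norm_num) h,
      ramp01_eq_zero (by norm_num) (by linarith)]
    ring
  rcases le_total t (4 / 5) with h' | h'
  · rw [mid_eq_one h h', mul_one]
  · rw [restWin, lowWin, highWin, ramp01_eq_one (by norm_num) (by linarith),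
      ramp01_eq_one (by norm_num) h']
    ring

theorem low_mul_sub_mid (t : ℝ) : lowWin t * (1 - lowWin t) * midWin t = lowWin t * (1 - lowWin t) := by
  rcases le_total t (1 / 5) with h | h
  · rw [lowWin, ramp01_eq_zero (by norm_num) h]; ring
  rcases le_total t (4 / 5) with h' | h'
  · rw [mid_eq_one h h', mul_one]
  · rw [lowWin, ramp01_eq_one (by norm_num) (by linarith)]; ring

theorem high_mul_sub_mid (t : ℝ) :
    highWin t * (1 - highWin t) * midWin t = highWin t * (1 - highWin t) := by
  rcases le_total t (1 / 5) with h | h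
  · rw [highWin, ramp01_eq_zero (by norm_num) (by linarith)]; ring
  rcases le_total t (4 / 5) with h' | h'
  · rw [mid_eq_one h h', mul_one]
  · rw [highWin, ramp01_eq_one (by norm_num) h']; ring

theorem low_smul_twist {f : MatPath} (hf : f ∈ dimDropAlg) (t : ℝ) :
    (lowWin t : ℂ) • endRep lowRep (lowVal f) = (lowWin t : ℂ) • twist f t := by
  rcases le_total t (2 / 5) with h | h
  · congr 1
    ext p q
    rw [lowRep_eq, twist_of_le f (inLow_lowVal hf) h]
  · rw [lowWin, ramp01_eq_one (by norm_num) h]; simp

theorem high_smul_twist {f : MatPath} (hf : f ∈ dimDropAlg) (t : ℝ) :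
    (highWin t : ℂ) • endRep highRep (highVal f) = (highWin t : ℂ) • twist f t := by
  rcases le_total t (3 / 5) with h | h
  · rw [highWin, ramp01_eq_zero (by norm_num) h]; simp
  · rw [highRep_eq, ← inHigh_highVal hf, twist_of_ge f h]

section

set_option linter.unusedSectionVars false

variable {B : Type u} [CStarAlgebra B] [PartialOrder B] [StarOrderedRing B] {T : B}
  {X : Slot → Slot → B} {N : Fin 2 → Fin 2 → B} {M : Fin 3 → Fin 3 → B}

/-- The hom. -/
def dropFun (T : B) (X : Slot → Slot → B) (N : Fin 2 → Fin 2 → B) (M : Fin 3 → Fin 3 → B)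
    (f : MatPath) : B :=
  endPart T lowWin N (lowVal f) + endPart T highWin M (highVal f) +
    midPart T X (fun t => (restWin t : ℂ) • twist f t)

theorem continuous_rest_twist (f : MatPath) :
    Continuous fun t => (restWin t : ℂ) • twist f t :=
  (Complex.continuous_ofReal.comp continuous_restWin).smul (continuous_twist f)

theorem DropData.end_split {n : ℕ} (d : DropData T X N M) (w : ℝ → ℝ) (hw : Continuous w)
    (hm : ∀ t, w t * (1 - w t) * midWin t = w t * (1 - w t))
    (K : Fin n → Fin n → B) (ρ : Fin n → Fin n → Slot → Slot → ℂ)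
    (hK : ∀ i j, Commute T (K i j))
    (act : ∀ i j q s, cfc w T * (K i j * X q s) = cfc w T * ∑ p, ρ i j p q • X p s)
    (η : Matrix (Fin n) (Fin n) ℂ) :
    endPart T (fun t => w t * w t) K η =
      endPart T w K η + midPart T X (fun t => ((w t * w t - w t : ℝ) : ℂ) • endRep ρ η) := by
  have hT := d.nonneg.isSelfAdjoint
  have h1 : Continuous fun t => 1 - w t := continuous_const.sub hw
  have hmw : Continuous midWin :=
    (continuous_ramp01 _ _).mul (continuous_const.sub (continuous_ramp01 _ _))
  have hH : Continuous fun t => ((1 - w t : ℝ) : ℂ) • (1 : Matrix Slot Slot ℂ) :=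
    (Complex.continuous_ofReal.comp h1).smul continuous_const
  have key := end_mid' (T := T) (X := X) hT w hw K ρ hK act η hH
  rw [midPart_scalar d _ h1, endPart_mul_cfc w hw (fun t => (1 - w t) * midWin t) (h1.mul hmw) K hK] at key
  have e1 : (fun t => w t * ((1 - w t) * midWin t)) = fun t => w t - w t * w t :=
    funext fun t => by rw [← mul_assoc, hm]; ring
  rw [e1] at key
  have e2 : endPart T (fun t => w t - w t * w t) K η =
      endPart T w K η - endPart T (fun t => w t * w t) K η := by
    simp only [endPart, cfc_sub w (fun t => w t * w t) T hw.continuousOn (hw.mul hw).continuousOn,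
      sub_mul, smul_sub, Finset.sum_sub_distrib]
  have e3 : midPart T X (fun t => ((w t * w t - w t : ℝ) : ℂ) • endRep ρ η) =
      -midPart T X (fun t => (w t : ℂ) • endRep ρ η * ((1 - w t : ℝ) : ℂ) • 1) := by
    simp only [midPart, ← Finset.sum_neg_distrib]
    refine Finset.sum_congr rfl fun p _ => Finset.sum_congr rfl fun q _ => ?_
    rw [← neg_mul, evT, evT, ← cfc_neg]
    congr 2
    funext z
    simp only [Matrix.smul_apply, mul_smul_comm, mul_one, smul_eq_mul]
    push_cast
    ring
  rw [e3, ← key, e2]
  abel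

theorem DropData.mid_end {n : ℕ} (d : DropData T X N M) (w : ℝ → ℝ) (hw : Continuous w)
    (K : Fin n → Fin n → B) (ρ : Fin n → Fin n → Slot → Slot → ℂ)
    (hK : ∀ i j, Commute T (K i j)) (hKs : ∀ i j, star (K i j) = K j i)
    (hρ : ∀ η : Matrix (Fin n) (Fin n) ℂ, star (endRep ρ η) = endRep ρ (star η))
    (act : ∀ i j q s, cfc w T * (K i j * X q s) = cfc w T * ∑ p, ρ i j p q • X p s)
    (η : Matrix (Fin n) (Fin n) ℂ) {H : ℝ → Matrix Slot Slot ℂ} (hH : Continuous H) :
    midPart T X H * endPart T w K η =
      midPart T X (fun t => H t * ((w t : ℂ) • endRep ρ η)) := by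
  have key := congrArg star (end_mid' (T := T) (X := X) d.nonneg.isSelfAdjoint w hw K ρ hK act
    (star η) (H := fun t => star (H t)) hH.star)
  rw [star_mul, star_endPart w K hK hKs, star_midPart d, star_midPart d] at key
  simpa [star_star, star_mul, star_smul, hρ] using key

theorem DropData.map_mul (d : DropData T X N M) {f g : MatPath} (hf : f ∈ dimDropAlg)
    (hg : g ∈ dimDropAlg) : dropFun T X N M (f * g) = dropFun T X N M f * dropFun T X N M g := by
  have hT := d.nonneg.isSelfAdjoint
  have hl : lowVal (f * g) = lowVal f * lowVal g :=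
    lowVal_of (by rw [ContinuousMap.mul_apply, inLow_lowVal hf, inLow_lowVal hg, inLow_mul])
  have hh : highVal (f * g) = highVal f * highVal g :=
    highVal_of (by rw [ContinuousMap.mul_apply, inHigh_highVal hf, inHigh_highVal hg, inHigh_mul])
  have hρ : ∀ ξ : Matrix (Fin 3) (Fin 3) ℂ, star (endRep highRep ξ) = endRep highRep (star ξ) :=
    fun ξ => by rw [highRep_eq, highRep_eq, inHigh_star]
  set G := fun t => (restWin t : ℂ) • twist f t with hG
  set H := fun t => (restWin t : ℂ) • twist g t with hH
  have cG : Continuous G := continuous_rest_twist f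
  have cH : Continuous H := continuous_rest_twist g
  have hlc : Continuous fun t => (lowWin t : ℂ) := Complex.continuous_ofReal.comp continuous_lowWin
  have hhc : Continuous fun t => (highWin t : ℂ) :=
    Complex.continuous_ofReal.comp continuous_highWin
  have hmc : Continuous fun t => (midWin t : ℂ) := Complex.continuous_ofReal.comp
    ((continuous_ramp01 _ _).mul (continuous_const.sub (continuous_ramp01 _ _)))
  have hab := endPart_mul_zero (T := T) continuous_lowWin continuous_highWin lowWin_mul_highWin
    N M d.commN (lowVal f) (highVal g)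
  have hba := endPart_mul_zero (T := T) continuous_highWin continuous_lowWin
    (fun t => by rw [mul_comm]; exact lowWin_mul_highWin t) M N d.commM (highVal f) (lowVal g)
  rw [dropFun, dropFun, dropFun, hl, hh]
  simp only [add_mul, mul_add]
  rw [endPart_mul lowWin continuous_lowWin N d.commN d.mulN, hab, hba,
    endPart_mul highWin continuous_highWin M d.commM d.mulM,
    end_mid' hT lowWin continuous_lowWin N lowRep d.commN d.actN _ cH,
    end_mid' hT highWin continuous_highWin M highRep d.commM d.actM _ cH,
    d.mid_end lowWin continuous_lowWin N lowRep d.commN d.starN endRep_low_star d.actN _ cG,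
    d.mid_end highWin continuous_highWin M highRep d.commM d.starM hρ d.actM _ cG,
    d.mid_mul cG cH, d.end_split lowWin continuous_lowWin low_mul_sub_mid N lowRep d.commN d.actN,
    d.end_split highWin continuous_highWin high_mul_sub_mid M highRep d.commM d.actM]
  set L := fun t => ((lowWin t * lowWin t - lowWin t : ℝ) : ℂ) •
    endRep lowRep (lowVal f * lowVal g) with hL
  set R := fun t => ((highWin t * highWin t - highWin t : ℝ) : ℂ) •
    endRep highRep (highVal f * highVal g) with hR
  have cL : Continuous L := (Complex.continuous_ofReal.comp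
    ((continuous_lowWin.mul continuous_lowWin).sub continuous_lowWin)).smul continuous_const
  have cR : Continuous R := (Complex.continuous_ofReal.comp
    ((continuous_highWin.mul continuous_highWin).sub continuous_highWin)).smul continuous_const
  have key : midPart T X (fun t => (restWin t : ℂ) • twist (f * g) t) =
      midPart T X L + midPart T X R +
        midPart T X (fun t => (lowWin t : ℂ) • endRep lowRep (lowVal f) * H t) +
        midPart T X (fun t => (highWin t : ℂ) • endRep highRep (highVal f) * H t) +
        midPart T X (fun t => G t * (lowWin t : ℂ) • endRep lowRep (lowVal g)) +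
        midPart T X (fun t => G t * (highWin t : ℂ) • endRep highRep (highVal g)) +
        midPart T X (fun t => (midWin t : ℂ) • (G t * H t)) := by
    have c1 := (hlc.smul (continuous_const (y := endRep lowRep (lowVal f)))).matrix_mul cH
    have c2 := (hhc.smul (continuous_const (y := endRep highRep (highVal f)))).matrix_mul cH
    have c3 := cG.matrix_mul (hlc.smul (continuous_const (y := endRep lowRep (lowVal g))))
    have c4 := cG.matrix_mul (hhc.smul (continuous_const (y := endRep highRep (highVal g))))
    set A1 := fun t => (lowWin t : ℂ) • endRep lowRep (lowVal f) * H t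
    set A2 := fun t => (highWin t : ℂ) • endRep highRep (highVal f) * H t
    set A3 := fun t => G t * (lowWin t : ℂ) • endRep lowRep (lowVal g)
    set A4 := fun t => G t * (highWin t : ℂ) • endRep highRep (highVal g)
    set A5 := fun t => (midWin t : ℂ) • (G t * H t)
    have c5 : Continuous A5 := hmc.smul (cG.matrix_mul cH)
    have d1 : Continuous fun t => L t + R t := cL.add cR
    have d2 : Continuous fun t => L t + R t + A1 t := d1.add c1
    have d3 : Continuous fun t => L t + R t + A1 t + A2 t := d2.add c2
    have d4 : Continuous fun t => L t + R t + A1 t + A2 t + A3 t := d3.add c3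
    have d5 : Continuous fun t => L t + R t + A1 t + A2 t + A3 t + A4 t := d4.add c4
    rw [← midPart_add X L R cL cR, ← midPart_add X (fun t => L t + R t) A1 d1 c1,
      ← midPart_add X (fun t => L t + R t + A1 t) A2 d2 c2,
      ← midPart_add X (fun t => L t + R t + A1 t + A2 t) A3 d3 c3,
      ← midPart_add X (fun t => L t + R t + A1 t + A2 t + A3 t) A4 d4 c4,
      ← midPart_add X (fun t => L t + R t + A1 t + A2 t + A3 t + A4 t) A5 d5 c5]
    refine congrArg _ (funext fun t => ?_)
    have el : (lowWin t : ℂ) • endRep lowRep (lowVal f * lowVal g) =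
        (lowWin t : ℂ) • twist (f * g) t := by
      rw [← hl]; exact low_smul_twist (mul_mem hf hg) t
    have eh : (highWin t : ℂ) • endRep highRep (highVal f * highVal g) =
        (highWin t : ℂ) • twist (f * g) t := by
      rw [← hh]; exact high_smul_twist (mul_mem hf hg) t
    simp only [hL, hR, hG, hH, A1, A2, A3, A4, A5]
    rw [low_smul_twist hf, low_smul_twist hg, high_smul_twist hf, high_smul_twist hg,
      show ((lowWin t * lowWin t - lowWin t : ℝ) : ℂ) • endRep lowRep (lowVal f * lowVal g) =
        ((lowWin t - 1 : ℝ) : ℂ) • ((lowWin t : ℂ) • endRep lowRep (lowVal f * lowVal g)) by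
        rw [smul_smul]; congr 1; push_cast; ring,
      show ((highWin t * highWin t - highWin t : ℝ) : ℂ) •
          endRep highRep (highVal f * highVal g) =
        ((highWin t - 1 : ℝ) : ℂ) • ((highWin t : ℂ) • endRep highRep (highVal f * highVal g)) by
        rw [smul_smul]; congr 1; push_cast; ring, el, eh, twist_mul]
    simp only [smul_mul_smul_comm, smul_smul, ← add_smul]
    congr 1
    have hlh : ((lowWin t : ℂ) * highWin t) = 0 := by exact_mod_cast lowWin_mul_highWin t
    have hrm : ((restWin t : ℂ) * midWin t) = restWin t := by exact_mod_cast restWin_mul_mid t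
    have hr : (restWin t : ℂ) = 1 - lowWin t - highWin t := by simp [restWin]
    push_cast
    linear_combination (2 : ℂ) * hlh - (restWin t : ℂ) * hrm -
      ((restWin t : ℂ) + lowWin t + highWin t) * hr
  rw [key]
  abel

theorem endPart_one {n : ℕ} (w : ℝ → ℝ) (K : Fin n → Fin n → B)
    (hsum : cfc w T * ∑ i, K i i = cfc w T) : endPart T w K 1 = cfc w T := by
  conv_rhs => rw [← hsum, Finset.mul_sum]
  rw [endPart]
  refine Finset.sum_congr rfl fun i _ => ?_
  simp [Matrix.one_apply]

theorem DropData.map_algebraMap (d : DropData T X N M) (c : ℂ) :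
    dropFun T X N M (algebraMap ℂ MatPath c) = algebraMap ℂ B c := by
  have hT := d.nonneg.isSelfAdjoint
  have hl : lowVal (algebraMap ℂ MatPath c) = c • 1 := by
    ext i j; simp [lowVal, Matrix.one_apply]
  have hh : highVal (algebraMap ℂ MatPath c) = c • 1 := by
    ext i j; simp [highVal, Matrix.one_apply]
  have ht : ∀ t, twist (algebraMap ℂ MatPath c) t = c • 1 := fun t => by
    have hu : rot t * star (rot t) = 1 := mul_eq_one_comm.1 (rot_star_mul t)
    simp [twist, Algebra.algebraMap_eq_smul_one, hu]
  have hs : ∀ {n : ℕ} (w : ℝ → ℝ) (K : Fin n → Fin n → B),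
      endPart T w K (c • 1) = c • endPart T w K 1 := fun w K => by
    simp only [endPart, Finset.smul_sum, Matrix.smul_apply, smul_smul, smul_eq_mul]
  have hm : midPart T X (fun t => (restWin t : ℂ) • twist (algebraMap ℂ MatPath c) t) =
      c • midPart T X (fun t => (restWin t : ℂ) • 1) := by
    simp only [midPart, Finset.smul_sum, ← smul_mul_assoc]
    refine Finset.sum_congr rfl fun p _ => Finset.sum_congr rfl fun q _ => ?_
    rw [← evT_smul c (fun t => ((restWin t : ℂ) • (1 : Matrix Slot Slot ℂ)) p q)
      (((Complex.continuous_ofReal.comp continuous_restWin).smul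
        continuous_const).matrix_elem p q)]
    congr 2
    funext t
    simp only [ht, Matrix.smul_apply, smul_eq_mul]
    ring
  rw [dropFun, hl, hh, hs, hs, hm, endPart_one lowWin N d.sumN, endPart_one highWin M d.sumM,
    midPart_scalar d restWin continuous_restWin, ← smul_add, ← smul_add,
    Algebra.algebraMap_eq_smul_one]
  congr 1
  rw [show (fun t => restWin t * midWin t) = restWin from funext restWin_mul_mid,
    ← cfc_add T lowWin highWin continuous_lowWin.continuousOn continuous_highWin.continuousOn,
    ← cfc_add T (fun t => lowWin t + highWin t) restWin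
      (continuous_lowWin.add continuous_highWin).continuousOn continuous_restWin.continuousOn,
    ← cfc_one ℝ T hT]
  exact cfc_congr fun t _ => by simp [restWin]

theorem DropData.map_star (d : DropData T X N M) (f : MatPath) :
    dropFun T X N M (star f) = star (dropFun T X N M f) := by
  rw [dropFun, dropFun, star_add, star_add, star_endPart lowWin N d.commN d.starN,
    star_endPart highWin M d.commM d.starM, star_midPart d]
  have hl : lowVal (star f) = star (lowVal f) := by
    ext i j; simp [lowVal, Matrix.star_apply]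
  have hh : highVal (star f) = star (highVal f) := by
    ext i j; simp [highVal, Matrix.star_apply]
  rw [hl, hh]
  congr 2
  funext t
  simp [twist, star_mul, mul_assoc]

theorem map_add_dropFun (f g : MatPath) :
    dropFun T X N M (f + g) = dropFun T X N M f + dropFun T X N M g := by
  have hl : lowVal (f + g) = lowVal f + lowVal g := by ext i j; simp [lowVal]
  have hh : highVal (f + g) = highVal f + highVal g := by ext i j; simp [highVal]
  have he : ∀ {n : ℕ} (w : ℝ → ℝ) (K : Fin n → Fin n → B) (a b : Matrix (Fin n) (Fin n) ℂ),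
      endPart T w K (a + b) = endPart T w K a + endPart T w K b := fun w K a b => by
    simp only [endPart, Matrix.add_apply, add_smul, Finset.sum_add_distrib]
  have hm : (fun t => (restWin t : ℂ) • twist (f + g) t) =
      fun t => (restWin t : ℂ) • twist f t + (restWin t : ℂ) • twist g t :=
    funext fun t => by simp [twist, mul_add, add_mul, smul_add]
  rw [dropFun, dropFun, dropFun, hl, hh, he, he, hm,
    midPart_add X _ _ (continuous_rest_twist f) (continuous_rest_twist g)]
  abel

/-- A unital star homomorphism on the dimension drop algebra. -/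
theorem DropData.exists_hom (d : DropData T X N M) : Nonempty (dimDropAlg →⋆ₐ[ℂ] B) := by
  refine ⟨{ toFun := fun f => dropFun T X N M f, map_one' := ?_, map_mul' := ?_, map_zero' := ?_,
            map_add' := ?_, commutes' := ?_, map_star' := ?_ }⟩
  · have := d.map_algebraMap 1
    rwa [map_one, map_one] at this
  · exact fun f g => d.map_mul f.2 g.2
  · have := d.map_algebraMap 0
    rwa [map_zero, map_zero] at this
  · exact fun f g => map_add_dropFun f.1 g.1
  · exact fun c => d.map_algebraMap c
  · exact fun f => d.map_star f.1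

end

end Vale.Agent.P101
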